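import Vale.Agent.P084.Orbit.Amplify

/-!
P084 (Tingley's problem), library: Banach spaces whose norm fails to be quadratically smooth at
enough points of Fréchet differentiability have the Mazur–Ulam property.
-/

namespace Vale.Agent.P084.Orbit

open Filter Topology Metric

variable {X Y : Type*} [NormedAddCommGroup X] [NormedSpace ℝ X] [NormedAddCommGroup Y]
  [NormedSpace ℝ Y]

open Classical in
/-- The positively homogeneous extension of a map of the unit sphere. -/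
noncomputable def ext (f : sphere (0 : X) 1 → Y) (v : X) : Y :=
  if h : v = 0 then 0 else ‖v‖ • f ⟨‖v‖⁻¹ • v, by simp [norm_smul, h]⟩

lemma ext_zero (f : sphere (0 : X) 1 → Y) : ext f 0 = 0 := by simp [ext]

lemma ext_unit (f : sphere (0 : X) 1 → Y) (x : sphere (0 : X) 1) : ext f x = f x := by
  have hx : ‖(x : X)‖ = 1 := mem_sphere_zero_iff_norm.1 x.2
  have hne : (x : X) ≠ 0 := fun h => by simp [h] at hx
  simp [ext, hne, hx]

lemma ext_pos_smul (f : sphere (0 : X) 1 → Y) {r : ℝ} (hr : 0 < r) (x : sphere (0 : X) 1) :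
    ext f (r • (x : X)) = r • f x := by
  have hx : ‖(x : X)‖ = 1 := mem_sphere_zero_iff_norm.1 x.2
  have hne : (x : X) ≠ 0 := fun h => by simp [h] at hx
  simp [ext, smul_ne_zero hr.ne' hne, norm_smul, hx, abs_of_pos hr, smul_smul, hr.ne']

/-- A surjective isometry of unit spheres gives a positively homogeneous bijection. -/
lemma exists_pIso {f : sphere (0 : X) 1 → sphere (0 : Y) 1} (hf : Isometry f)
    (hsurj : Function.Surjective f) :
    ∃ s : PIso X Y, ∀ x : sphere (0 : X) 1, s.G x = f x := by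
  set g := Function.surjInv hsurj with hg
  have hfg : ∀ z, f (g z) = z := Function.surjInv_eq hsurj
  have hgf : ∀ x, g (f x) = x := fun x => hf.injective (hfg (f x))
  set G := ext (fun x => (f x : Y)) with hG
  set H := ext (fun z => (g z : X)) with hH
  have polar : ∀ v : X, v = 0 ∨ ∃ r : ℝ, 0 < r ∧ ∃ x : sphere (0 : X) 1, v = r • (x : X) := by
    intro v
    rcases eq_or_ne v 0 with h | h
    · exact Or.inl h
    · exact Or.inr ⟨‖v‖, norm_pos_iff.2 h, ⟨‖v‖⁻¹ • v, by simp [norm_smul, h]⟩,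
        by simp [smul_smul, h]⟩
  refine ⟨⟨G, H, ?_, ?_, ?_, ?_, ?_⟩, fun x => ext_unit (fun x => (f x : Y)) x⟩
  · intro v
    rcases polar v with rfl | ⟨r, hr, x, rfl⟩
    · simp [hG, hH, ext_zero]
    · simp [hG, hH, ext_pos_smul _ hr, hgf]
  · intro w
    rcases eq_or_ne w 0 with rfl | h
    · simp [hG, hH, ext_zero]
    · obtain ⟨z, hz⟩ : ∃ z : sphere (0 : Y) 1, w = ‖w‖ • (z : Y) :=
        ⟨⟨‖w‖⁻¹ • w, by simp [norm_smul, h]⟩, by simp [smul_smul, h]⟩
      have hw : 0 < ‖w‖ := norm_pos_iff.2 h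
      rw [hz]
      simp [hG, hH, ext_pos_smul _ hw, hfg]
  · intro v
    rcases polar v with rfl | ⟨r, hr, x, rfl⟩
    · simp [hG, ext_zero]
    · simp [hG, ext_pos_smul _ hr, norm_smul, mem_sphere_zero_iff_norm.1 x.2,
        mem_sphere_zero_iff_norm.1 (f x).2]
  · intro t ht v
    rcases polar v with rfl | ⟨r, hr, x, rfl⟩
    · simp [hG, ext_zero]
    · rcases ht.eq_or_lt with rfl | ht
      · simp [hG, ext_zero]
      · rw [hG, smul_smul, ext_pos_smul _ (mul_pos ht hr), ext_pos_smul _ hr, smul_smul]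
  · intro v x hx
    rcases polar v with rfl | ⟨r, hr, u, rfl⟩
    · simp [hG, ext_zero]
    · have hu : ‖r • (u : X)‖ = r := by
        simp [norm_smul, mem_sphere_zero_iff_norm.1 u.2, abs_of_pos hr]
      have hx' : G x = (f ⟨x, mem_sphere_zero_iff_norm.2 hx⟩ : Y) :=
        ext_unit _ ⟨x, mem_sphere_zero_iff_norm.2 hx⟩
      have hd := hf.dist_eq u ⟨x, mem_sphere_zero_iff_norm.2 hx⟩
      rw [Subtype.dist_eq, Subtype.dist_eq, dist_eq_norm, dist_eq_norm] at hd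
      rw [hu, hx', hG, ext_pos_smul _ hr, ← smul_sub, ← smul_sub, norm_smul, norm_smul, hd]

namespace PIso

variable (f : PIso X Y) [CompleteSpace X] [CompleteSpace Y]

/-- One rough point suffices in the strictly convex case. -/
theorem linear_of_strict [StrictConvexSpace ℝ X] {x : X} {π : X →L[ℝ] ℝ} (hx : ‖x‖ = 1)
    (hd : HasFDerivAt (fun z : X => ‖z‖) π x) (hr : Rough x) :
    ∃ L : X ≃ₗᵢ[ℝ] Y, ∀ v, L v = f.G v := by
  obtain ⟨L, hLn, hLx, -, hA⟩ := f.exists_isometry hx hd hr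
  have hx0 : x ≠ 0 := fun h => by simp [h] at hx
  have hπ := supp_of_hasFDerivAt hx0 hd
  have hπx : π x = 1 := by rw [hπ.2, hx]
  set T : X ≃ₗᵢ[ℝ] Y := ⟨L.toLinearEquiv, hLn⟩ with hT
  have hunit : ∀ s : X, ‖s‖ = 1 → f.G s = L s := by
    intro s hs
    set l := ‖x - s‖ with hl
    set d' := f.G x - f.G s with hd'
    have hd'n : ‖d'‖ = l := f.dist_unit hx hs
    have hbig : ∀ η, 0 < η → 2 * l - 4 * η ≤ ‖d' + L (x - s)‖ := by
      intro η hη
      obtain ⟨⟨p₁, q₁, hp₁, hq₁, hc₁, a₁, b₁, e₁⟩, ⟨p₂, q₂, hp₂, hq₂, hc₂, a₂, b₂, e₂⟩⟩ :=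
        hA η hη s hs
      have fin : ∀ (p : X →L[ℝ] ℝ) (q : Y →L[ℝ] ℝ), (∀ v, q v ≤ ‖v‖) →
          (∀ τ, π τ = 0 → q ((L : X →L[ℝ] Y) τ) = p τ) → l - η ≤ p (x - s) → l - η ≤ q d' →
          |q (f.G x) - p x| ≤ η → 2 * l - 4 * η ≤ ‖d' + L (x - s)‖ := by
        intro p q hq hc ha hb he
        have h1 : q (L (x - s)) = p (x - s) + π (x - s) * (q (f.G x) - p x) := by
          have := apply_M (W := f.G x) hπx hc (x - s)
          rwa [M_apply, ContinuousLinearEquiv.coe_coe, map_sub L, map_smul L, hLx,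
            sub_add_cancel] at this
        have h2 := hq (d' + L (x - s))
        rw [map_add, h1] at h2
        have h3 : |π (x - s)| ≤ 2 := by
          have := (abs_le.2 ⟨hπ.ge (x - s), hπ.le (x - s)⟩).trans (norm_sub_le x s)
          linarith
        have h4 : |π (x - s) * (q (f.G x) - p x)| ≤ 2 * η := by
          rw [abs_mul]; exact mul_le_mul h3 he (abs_nonneg _) two_pos.le
        linarith [(abs_le.1 h4).1]
      rcases le_or_gt (-η) (q₁ (f.G x) - p₁ x) with h | h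
      · exact fin p₁ q₁ hq₁ hc₁ a₁ b₁ (abs_le.2 ⟨h, by linarith⟩)
      rcases le_or_gt (q₂ (f.G x) - p₂ x) η with h' | h'
      · exact fin p₂ q₂ hq₂ hc₂ a₂ b₂ (abs_le.2 ⟨by linarith, h'⟩)
      set A₁ := q₁ (f.G x) - p₁ x
      set A₂ := q₂ (f.G x) - p₂ x
      set c := -A₁ / (A₂ - A₁) with hcdef
      have hden : 0 < A₂ - A₁ := by linarith
      have hc0 : 0 ≤ c := div_nonneg (by linarith) hden.le
      have hc1 : c ≤ 1 := (div_le_one hden).2 (by linarith)
      refine fin ((1 - c) • p₁ + c • p₂) ((1 - c) • q₁ + c • q₂) (fun v => ?_) (fun τ hτ => ?_)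
        ?_ ?_ ?_
      · have h5 := mul_le_mul_of_nonneg_left (hq₁ v) (by linarith : 0 ≤ 1 - c)
        have h6 := mul_le_mul_of_nonneg_left (hq₂ v) hc0
        simp only [add_apply, smul_apply, smul_eq_mul]
        linarith
      · simp only [add_apply, smul_apply, smul_eq_mul, hc₁ τ hτ, hc₂ τ hτ]
      · have h5 := mul_le_mul_of_nonneg_left a₁ (by linarith : 0 ≤ 1 - c)
        have h6 := mul_le_mul_of_nonneg_left a₂ hc0
        simp only [add_apply, smul_apply, smul_eq_mul]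
        linarith
      · have h5 := mul_le_mul_of_nonneg_left b₁ (by linarith : 0 ≤ 1 - c)
        have h6 := mul_le_mul_of_nonneg_left b₂ hc0
        simp only [add_apply, smul_apply, smul_eq_mul]
        linarith
      · have e : (1 - c) * A₁ + c * A₂ = 0 := by rw [hcdef]; field_simp; ring
        simp only [add_apply, smul_apply, smul_eq_mul]
        rw [show (1 - c) * q₁ (f.G x) + c * q₂ (f.G x) - ((1 - c) * p₁ x + c * p₂ x) =
          (1 - c) * A₁ + c * A₂ by ring, e, abs_zero]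
        exact hη.le
    have hsum : ‖d' + L (x - s)‖ = 2 * l := by
      refine le_antisymm ((norm_add_le _ _).trans (by rw [hd'n, hLn]; linarith))
        (le_of_forall_pos_le_add fun ε hε => ?_)
      linarith [hbig (ε / 4) (by positivity)]
    have h1 : L.symm d' = x - s := by
      have hn : ‖L.symm d'‖ = l := by rw [← hLn, L.apply_symm_apply, hd'n]
      refine eq_of_norm_eq_of_norm_add_eq (by rw [hn]) ?_
      rw [← hLn, map_add, L.apply_symm_apply, hsum, hn]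
      ring
    have h2 : d' = L (x - s) := by rw [← h1, L.apply_symm_apply]
    rw [hd', map_sub, hLx] at h2
    exact sub_right_injective h2
  refine ⟨T, fun v => ?_⟩
  show L v = f.G v
  rcases eq_or_ne v 0 with rfl | hv
  · rw [map_zero, f.G_zero]
  · have e : v = ‖v‖ • (‖v‖⁻¹ • v) := by simp [smul_smul, hv]
    rw [e, map_smul, f.G_smul _ (norm_nonneg v)]
    exact congrArg (‖v‖ • ·) (hunit _ (norm_smul_inv_norm hv)).symm

omit [CompleteSpace X] [CompleteSpace Y] in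
lemma defect_le_sd {Z : Type*} [NormedAddCommGroup Z] [NormedSpace ℝ Z] {z : Z} {φ : Z →L[ℝ] ℝ}
    (hφ : Supp z φ) (h : Z) : defect z φ h ≤ sd z h := by
  have := hφ.le (z - h)
  rw [map_sub, hφ.2] at this
  unfold defect sd
  linarith

/-- Isometric derivatives at a rough point bound the increments in both directions. -/
lemma step_bound {x : X} {π : X →L[ℝ] ℝ} (hx : ‖x‖ = 1)
    (hd : HasFDerivAt (fun z : X => ‖z‖) π x) (hr : Rough x) :
    (∀ h : X, ‖h‖ ≤ 1 / 65536 →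
        ‖f.G (x + h) - f.G x‖ ≤ ‖h‖ + C0 * (sd x h + 4 * ‖h‖ ^ 2)) ∧
      ∀ h : Y, ‖h‖ ≤ 1 / 65536 →
        ‖f.Gi (f.G x + h) - x‖ ≤ ‖h‖ + C0 * (sd (f.G x) h + 4 * ‖h‖ ^ 2) := by
  obtain ⟨L, hLn, -, hest, -⟩ := f.exists_isometry hx hd hr
  obtain ⟨L₁, hL₁, -, hd', -⟩ := f.exists_deriv_equiv hx hd
  have hy : ‖f.G x‖ = 1 := by rw [f.norm_G, hx]
  obtain ⟨L₂, hL₂, -, -, hest₂⟩ := f.symm.exists_deriv_equiv hy hd'
  have hx0 : x ≠ 0 := fun h => by simp [h] at hx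
  have hy0 : f.G x ≠ 0 := fun h => by simp [h] at hy
  refine ⟨fun h hh => ?_, fun h hh => ?_⟩
  · have h1 := norm_add_le (f.G (x + h) - f.G x - L h) (L h)
    rw [sub_add_cancel, hLn] at h1
    have h2 := mul_le_mul_of_nonneg_left
      (add_le_add_right (defect_le_sd (supp_of_hasFDerivAt hx0 hd) h) (4 * ‖h‖ ^ 2)) C0_pos.le
    linarith [hest h hh]
  · -- the derivative of the inverse is the inverse isometry
    have hLd : HasFDerivAt f.G (L : X →L[ℝ] Y) x := by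
      refine hasFDerivAt_iff_isLittleO_nhds_zero.2 ?_
      refine Asymptotics.IsBigO.trans_isLittleO (g := fun a : X => defect x π a + 4 * ‖a‖ ^ 2)
        (Asymptotics.IsBigO.of_bound C0 ?_) ?_
      · filter_upwards [Metric.closedBall_mem_nhds (0 : X) (by norm_num : (0:ℝ) < 1 / 65536)]
          with a ha
        rw [Real.norm_of_nonneg (by have := defect_nonneg hx0 hd a; positivity)]
        exact hest a (mem_closedBall_zero_iff.1 ha)
      · exact (hasFDerivAt_iff_isLittleO_nhds_zero.1 hd).add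
          ((Asymptotics.isLittleO_norm_pow_id (E' := X) one_lt_two).const_mul_left 4)
    have hcomp : HasFDerivAt (fun z => f.Gi (f.G z)) ((L₂ : Y →L[ℝ] X).comp (L : X →L[ℝ] Y)) x :=
      hL₂.comp x hLd
    simp only [f.Gi_G] at hcomp
    have hid := hcomp.unique (hasFDerivAt_id x)
    have hiso : ∀ w, ‖L₂ w‖ = ‖w‖ := fun w => by
      have e : L₂ (L (L.symm w)) = L.symm w := DFunLike.congr_fun hid (L.symm w)
      rw [L.apply_symm_apply] at e
      conv_rhs => rw [← L.apply_symm_apply w, hLn, ← e]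
    have h1 := norm_add_le (f.Gi (f.G x + h) - f.Gi (f.G x) - L₂ h) (L₂ h)
    rw [sub_add_cancel, hiso, f.Gi_G] at h1
    have h2 := mul_le_mul_of_nonneg_left
      (add_le_add_right (defect_le_sd (supp_of_hasFDerivAt hy0 hd') h) (4 * ‖h‖ ^ 2)) C0_pos.le
    have h3 := hest₂ h hh
    rw [symm_G, f.Gi_G] at h3
    linarith

omit [CompleteSpace X] [CompleteSpace Y] in
/-- Local bounds on a dense subset of the sphere make the extension 1-Lipschitz. -/
lemma lipschitz_of_dense (D : Set X) (hD : ∀ z : X, ‖z‖ = 1 → z ∈ closure D)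
    (hb : ∀ x ∈ D, ∀ h : X, ‖h‖ ≤ 1 / 65536 →
      ‖f.G (x + h) - f.G x‖ ≤ ‖h‖ + C0 * (sd x h + 4 * ‖h‖ ^ 2)) (a b : X) :
    ‖f.G a - f.G b‖ ≤ ‖a - b‖ := by
  have hG := f.continuous_G
  have hsph : ∀ z : X, ‖z‖ = 1 → ∀ h : X, ‖h‖ ≤ 1 / 65536 →
      ‖f.G (z + h) - f.G z‖ ≤ ‖h‖ + C0 * (sd z h + 4 * ‖h‖ ^ 2) := by
    intro z hz h hh
    have hcl : IsClosed {z : X |
        ‖f.G (z + h) - f.G z‖ ≤ ‖h‖ + C0 * (sd z h + 4 * ‖h‖ ^ 2)} := by
      refine isClosed_le ?_ ?_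
      · fun_prop
      · unfold sd; fun_prop
    exact closure_minimal (fun x hx => hb x hx h hh) hcl (hD z hz)
  have hgen : ∀ z h : X, z ≠ 0 → ‖h‖ ≤ ‖z‖ / 65536 →
      ‖f.G (z + h) - f.G z‖ ≤ ‖h‖ + C0 * (sd z h + 4 * ‖h‖ ^ 2 / ‖z‖) := by
    intro z h hz hh
    set n := ‖z‖ with hn
    have hn0 : 0 < n := norm_pos_iff.2 hz
    have h1 : ‖n⁻¹ • h‖ ≤ 1 / 65536 := by
      rw [norm_smul, norm_inv, Real.norm_of_nonneg hn0.le, inv_mul_le_iff₀ hn0]
      linarith
    have h2 := mul_le_mul_of_nonneg_left (hsph (n⁻¹ • z) (norm_smul_inv_norm hz) _ h1) hn0.le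
    have e : ∀ v : X, f.G (n⁻¹ • v) = n⁻¹ • f.G v := fun v => f.G_smul _ (inv_nonneg.2 hn0.le) v
    simp only [sd, ← smul_add, ← smul_sub, e, norm_smul, norm_inv,
      Real.norm_of_nonneg hn0.le] at h2
    unfold sd
    field_simp at h2 ⊢
    linarith
  by_cases h0 : ∃ t ∈ Set.Icc (0 : ℝ) 1, a + t • (b - a) = 0
  · obtain ⟨t, ht, h⟩ := h0
    have ea : a = (-t) • (b - a) := by
      rw [neg_smul]; exact eq_neg_of_add_eq_zero_left h
    have eb : b = (1 - t) • (b - a) := by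
      calc b = (b - a) + a := by abel
        _ = (b - a) + (-t) • (b - a) := by rw [← ea]
        _ = (1 - t) • (b - a) := by module
    refine (norm_sub_le _ _).trans_eq ?_
    rw [f.norm_G, f.norm_G, norm_sub_rev a b]
    conv_lhs => rw [eb]; arg 1; rw [ea]
    rw [norm_smul, norm_smul, norm_neg, Real.norm_of_nonneg ht.1,
      Real.norm_of_nonneg (by linarith [ht.2])]
    ring
  push Not at h0
  obtain ⟨t₀, ht₀, hmin⟩ := isCompact_Icc.exists_isMinOn
    (Set.nonempty_Icc.2 (zero_le_one (α := ℝ)))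
    ((by fun_prop : Continuous fun t : ℝ => ‖a + t • (b - a)‖).continuousOn)
  set m := ‖a + t₀ • (b - a)‖
  have hm : 0 < m := norm_pos_iff.2 (h0 t₀ ht₀)
  rw [norm_sub_rev, norm_sub_rev a b]
  set D₀ := ‖b - a‖
  refine le_of_forall_pos_le_add fun ε hε => ?_
  obtain ⟨N, hN⟩ := exists_nat_gt
    (max (65536 * D₀ / m) (C0 * (2 * D₀ + 4 * D₀ ^ 2 / m) / ε))
  have hN0 : (0 : ℝ) < N := by
    refine lt_of_le_of_lt ?_ hN
    exact le_max_of_le_left (by positivity)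
  set h := (N : ℝ)⁻¹ • (b - a) with hh
  have hhn : ‖h‖ = D₀ / N := by
    rw [hh, norm_smul, norm_inv, Real.norm_of_nonneg hN0.le, div_eq_inv_mul]
  set z : ℕ → X := fun i => a + (i : ℝ) • h with hz
  have hzm : ∀ i ∈ Finset.range N, m ≤ ‖z i‖ := fun i hi => by
    have hi' : (i : ℝ) ≤ N := by exact_mod_cast (Finset.mem_range.1 hi).le
    have := hmin (show (i : ℝ) / N ∈ Set.Icc (0 : ℝ) 1 from
      ⟨by positivity, (div_le_one hN0).2 hi'⟩)
    simpa [hz, hh, smul_smul, div_eq_mul_inv] using this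
  have hsmall : D₀ / N ≤ m / 65536 := by
    have h1 : 65536 * D₀ / m < N := lt_of_le_of_lt (le_max_left _ _) hN
    rw [div_lt_iff₀ hm] at h1
    rw [div_le_iff₀ hN0]
    linarith
  have hterm : ∀ i ∈ Finset.range N, ‖f.G (z (i + 1)) - f.G (z i)‖ ≤
      D₀ / N + C0 * (sd (z i) h + 4 * (D₀ / N) ^ 2 / m) := fun i hi => by
    have hzi := hzm i hi
    have h1 := hgen (z i) h (norm_pos_iff.1 (by linarith)) (by rw [hhn]; linarith)
    have e : z i + h = z (i + 1) := by simp only [hz]; push_cast; module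
    rw [e, hhn] at h1
    refine h1.trans (add_le_add le_rfl (mul_le_mul_of_nonneg_left ?_ C0_pos.le))
    exact add_le_add le_rfl (div_le_div_of_nonneg_left (by positivity) hm hzi)
  have htel : ∑ i ∈ Finset.range N, (f.G (z (i + 1)) - f.G (z i)) = f.G b - f.G a := by
    rw [Finset.sum_range_sub (fun i => f.G (z i))]
    simp [hz, hh, smul_smul, hN0.ne']
  rw [← htel]
  refine (norm_sum_le _ _).trans ((Finset.sum_le_sum hterm).trans ?_)
  rw [Finset.sum_add_distrib, Finset.sum_const, Finset.card_range, nsmul_eq_mul,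
    ← Finset.mul_sum, Finset.sum_add_distrib, Finset.sum_const, Finset.card_range, nsmul_eq_mul,
    mul_div_cancel₀ _ hN0.ne']
  have hsum := sum_sd_le a h N
  rw [hhn] at hsum
  have hC : C0 * (∑ i ∈ Finset.range N, sd (z i) h + N * (4 * (D₀ / N) ^ 2 / m)) ≤
      C0 * (2 * D₀ + 4 * D₀ ^ 2 / m) / N := by
    rw [mul_div_assoc C0]
    refine mul_le_mul_of_nonneg_left ?_ C0_pos.le
    calc _ ≤ 2 * (D₀ / N) + N * (4 * (D₀ / N) ^ 2 / m) := by gcongr
      _ = (2 * D₀ + 4 * D₀ ^ 2 / m) / N := by field_simp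
  have h1 : C0 * (2 * D₀ + 4 * D₀ ^ 2 / m) / ε < N := lt_of_le_of_lt (le_max_right _ _) hN
  rw [div_lt_iff₀ hε] at h1
  have h2 : C0 * (2 * D₀ + 4 * D₀ ^ 2 / m) / N ≤ ε := by rw [div_le_iff₀ hN0]; linarith
  linarith

/-- A dense set of rough points suffices in general. -/
theorem linear_of_dense
    (h : ∀ z : X, ‖z‖ = 1 → ∀ ε : ℝ, 0 < ε → ∃ x : X, ‖x‖ = 1 ∧ ‖x - z‖ < ε ∧
      DifferentiableAt ℝ (fun u : X => ‖u‖) x ∧ Rough x) :
    ∃ L : X ≃ₗᵢ[ℝ] Y, ∀ v, L v = f.G v := by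
  set D : Set X := {x | ‖x‖ = 1 ∧ DifferentiableAt ℝ (fun u : X => ‖u‖) x ∧ Rough x} with hD
  have hD1 : ∀ z : X, ‖z‖ = 1 → z ∈ closure D := fun z hz => by
    refine Metric.mem_closure_iff.2 fun ε hε => ?_
    obtain ⟨x, hx, hxz, hd, hr⟩ := h z hz ε hε
    exact ⟨x, ⟨hx, hd, hr⟩, by rwa [dist_comm, dist_eq_norm]⟩
  have hD2 : ∀ w : Y, ‖w‖ = 1 → w ∈ closure (f.G '' D) := fun w hw => by
    refine image_closure_subset_closure_image f.continuous_G
      ⟨f.Gi w, hD1 _ (by rw [f.norm_Gi, hw]), f.G_Gi w⟩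
  have h1 := f.lipschitz_of_dense D hD1
    (fun x hx => (f.step_bound hx.1 hx.2.1.hasFDerivAt hx.2.2).1)
  have h2 := f.symm.lipschitz_of_dense (f.G '' D) hD2 (by
    rintro _ ⟨x, hx, rfl⟩ k hk
    have := (f.step_bound hx.1 hx.2.1.hasFDerivAt hx.2.2).2 k hk
    rw [symm_G, f.Gi_G]
    exact this)
  let e : X ≃ᵢ Y :=
    { toFun := f.G
      invFun := f.Gi
      left_inv := f.Gi_G
      right_inv := f.G_Gi
      isometry_toFun := Isometry.of_dist_eq fun a b => by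
        rw [dist_eq_norm, dist_eq_norm]
        refine le_antisymm (h1 a b) ?_
        simpa [f.Gi_G] using h2 (f.G a) (f.G b) }
  exact ⟨e.toRealLinearIsometryEquivOfMapZero f.G_zero, fun v => rfl⟩

end PIso

/-- **Main theorem.** -/
theorem extends_linearly_rough [CompleteSpace X] [CompleteSpace Y]
    (h : (StrictConvexSpace ℝ X ∧ ∃ x : X, ‖x‖ = 1 ∧
        DifferentiableAt ℝ (fun u : X => ‖u‖) x ∧
        ∀ C r : ℝ, 0 < r → ∃ a : X, ‖a‖ < r ∧ C * ‖a‖ ^ 2 < ‖x + a‖ + ‖x - a‖ - 2) ∨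
      ∀ z : X, ‖z‖ = 1 → ∀ ε : ℝ, 0 < ε → ∃ x : X, ‖x‖ = 1 ∧ ‖x - z‖ < ε ∧
        DifferentiableAt ℝ (fun u : X => ‖u‖) x ∧
        ∀ C r : ℝ, 0 < r → ∃ a : X, ‖a‖ < r ∧ C * ‖a‖ ^ 2 < ‖x + a‖ + ‖x - a‖ - 2)
    {f : sphere (0 : X) 1 → sphere (0 : Y) 1} (hf : Isometry f)
    (hsurj : Function.Surjective f) :
    ∃ T : X ≃ₗᵢ[ℝ] Y, ∀ x : sphere (0 : X) 1, T (x : X) = (f x : Y) := by
  obtain ⟨s, hs⟩ := exists_pIso hf hsurj
  have conv : ∀ x : X, ‖x‖ = 1 →
      (∀ C r : ℝ, 0 < r → ∃ a : X, ‖a‖ < r ∧ C * ‖a‖ ^ 2 < ‖x + a‖ + ‖x - a‖ - 2) → Rough x :=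
    fun x hx hr C r hr0 => by
      obtain ⟨a, ha, h⟩ := hr C r hr0
      exact ⟨a, ha, by simpa [sd, hx] using h⟩
  rcases h with ⟨hX, x, hx, hd, hr⟩ | hd
  · obtain ⟨T, hT⟩ := s.linear_of_strict hx hd.hasFDerivAt (conv x hx hr)
    exact ⟨T, fun u => by rw [hT, hs]⟩
  · obtain ⟨T, hT⟩ := s.linear_of_dense fun z hz ε hε => by
      obtain ⟨x, hx, h1, h2, h3⟩ := hd z hz ε hε
      exact ⟨x, hx, h1, h2, conv x hx h3⟩
    exact ⟨T, fun u => by rw [hT, hs]⟩

end Vale.Agent.P084.Orbit
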