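import Vale.Agent.P084.Orbit.Deriv

/-!
P084 (Tingley's problem), library: at a point of Fréchet differentiability of the norm at which
the norm is not quadratically smooth, an amplification along an orbit shows that the derivative
of the homogeneous extension is a linear isometry.
-/

namespace Vale.Agent.P084.Orbit

open Filter Topology Metric

variable {X Y : Type*} [NormedAddCommGroup X] [NormedSpace ℝ X] [NormedAddCommGroup Y]
  [NormedSpace ℝ Y]

/-- The norm has no quadratic upper bound for its second difference at `x`. -/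
def Rough (x : X) : Prop := ∀ C r : ℝ, 0 < r → ∃ a : X, ‖a‖ < r ∧ C * ‖a‖ ^ 2 < sd x a

namespace PIso

variable (f : PIso X Y)

/-- The vector `W` is, up to `η`, a radial image of `x` for the supporting functionals of all
chords at `x`. -/
def Approx (x : X) (π : X →L[ℝ] ℝ) (L : X →L[ℝ] Y) (W : Y) (η : ℝ) : Prop :=
  ∀ w : X, ‖w‖ = 1 →
    (∃ (p : X →L[ℝ] ℝ) (q : Y →L[ℝ] ℝ), (∀ v, p v ≤ ‖v‖) ∧ (∀ v, q v ≤ ‖v‖) ∧
      (∀ τ, π τ = 0 → q (L τ) = p τ) ∧ ‖x - w‖ - η ≤ p (x - w) ∧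
      ‖x - w‖ - η ≤ q (f.G x - f.G w) ∧ q W ≤ p x + η) ∧
    ∃ (p : X →L[ℝ] ℝ) (q : Y →L[ℝ] ℝ), (∀ v, p v ≤ ‖v‖) ∧ (∀ v, q v ≤ ‖v‖) ∧
      (∀ τ, π τ = 0 → q (L τ) = p τ) ∧ ‖x - w‖ - η ≤ p (x - w) ∧
      ‖x - w‖ - η ≤ q (f.G x - f.G w) ∧ p x - η ≤ q W

/-- The candidate linear map with radial image `W`. -/
def M (x : X) (π : X →L[ℝ] ℝ) (L : X →L[ℝ] Y) (W : Y) : X →L[ℝ] Y :=
  L + π.smulRight (W - L x)

lemma M_apply (x : X) (π : X →L[ℝ] ℝ) (L : X →L[ℝ] Y) (W : Y) (v : X) :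
    M x π L W v = L (v - π v • x) + π v • W := by
  simp only [M, add_apply, ContinuousLinearMap.smulRight_apply, map_sub, map_smul, smul_sub]
  abel

lemma apply_M {x : X} {π : X →L[ℝ] ℝ} (hπ : π x = 1) {L : X →L[ℝ] Y} {W : Y}
    {p : X →L[ℝ] ℝ} {q : Y →L[ℝ] ℝ} (hc : ∀ τ, π τ = 0 → q (L τ) = p τ) (v : X) :
    q (M x π L W v) = p v + π v * (q W - p x) := by
  rw [M_apply, map_add, hc _ (by simp [hπ]), map_sub, map_smul, map_smul, smul_eq_mul,
    smul_eq_mul]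
  ring

variable {x : X} {π : X →L[ℝ] ℝ} {π' : Y →L[ℝ] ℝ} {L : X →L[ℝ] Y}

lemma norm_M_le_aux (hx : ‖x‖ = 1) (hπ : Supp x π) (W : Y) {v : X} (hv : ‖v‖ ≤ 1) :
    ‖M x π L W v‖ ≤ 2 * ‖L‖ + ‖W‖ := by
  have habs : |π v| ≤ 1 := (abs_le.2 ⟨hπ.ge v, hπ.le v⟩).trans hv
  rw [M_apply]
  refine (norm_add_le _ _).trans (add_le_add ?_ ?_)
  · refine (L.le_opNorm _).trans ?_
    rw [mul_comm 2 ‖L‖]
    refine mul_le_mul_of_nonneg_left ?_ (norm_nonneg _)
    refine (norm_sub_le _ _).trans ?_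
    rw [norm_smul, hx, mul_one, Real.norm_eq_abs]
    linarith
  · rw [norm_smul, Real.norm_eq_abs]
    exact mul_le_of_le_one_left (norm_nonneg _) habs

/-- The candidate map is almost contractive. -/
lemma exists_norm_M_le (hx : ‖x‖ = 1) (hπ : Supp x π)
    (hd' : HasFDerivAt (fun w : Y => ‖w‖) π' (f.G x)) (B : ℝ) {ε : ℝ} (hε : 0 < ε) :
    ∃ η₀, 0 < η₀ ∧ ∀ W, ‖W‖ ≤ B → ∀ η, 0 ≤ η → η ≤ η₀ → f.Approx x π L W η →
      ∀ v, ‖v‖ ≤ 1 → ‖M x π L W v‖ ≤ 1 + ε := by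
  set y := f.G x with hy
  have hy1 : ‖y‖ = 1 := by rw [hy, f.norm_G, hx]
  have hy0 : y ≠ 0 := fun h => by simp [h] at hy1
  have hπy : π' y = 1 := by rw [(supp_of_hasFDerivAt hy0 hd').2, hy1]
  set Bm : ℝ := max (2 * ‖L‖ + B) 1 with hBm
  have hBm1 : 1 ≤ Bm := le_max_right _ _
  set κ : ℝ := min (1 / 4) (ε / (8 * Bm)) with hκ
  have hκ0 : 0 < κ := lt_min (by norm_num) (by positivity)
  have hκB : Bm * κ ≤ ε / 8 := by
    have h : κ ≤ ε / (8 * Bm) := min_le_right _ _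
    rw [le_div_iff₀ (by positivity)] at h
    linarith
  obtain ⟨r, hr, hball⟩ := Metric.eventually_nhds_iff.1
    ((hasFDerivAt_iff_isLittleO_nhds_zero.1 hd').bound (show 0 < κ / 4 by positivity))
  set t : ℝ := min (1 / 4) (r / 4) with ht
  have ht0 : 0 < t := lt_min (by norm_num) (by linarith)
  have htr : 2 * t < r := by
    have : t ≤ r / 4 := min_le_right _ _
    linarith
  refine ⟨min (ε / 8) (ε * t / (8 * Bm)), lt_min (by linarith) (by positivity),
    fun W hW η hη0 hη hA => ?_⟩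
  have hη1 : η ≤ ε / 8 := hη.trans (min_le_left _ _)
  have hη2 : Bm * (η / t) ≤ ε / 8 := by
    have h := hη.trans (min_le_right _ _)
    rw [le_div_iff₀ (by positivity)] at h
    rw [← mul_div_assoc, div_le_iff₀ ht0]
    linarith
  have main : ∀ v, ‖v‖ ≤ 1 → 0 ≤ π' (M x π L W v) → ‖M x π L W v‖ ≤ 1 + ε := by
    intro v hv hpos
    set m := ‖M x π L W v‖ with hm
    have hmB : m ≤ Bm := by
      refine le_trans ?_ (le_max_left _ _)
      linarith [norm_M_le_aux (L := L) hx hπ W hv]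
    rcases eq_or_ne m 0 with h0 | h0
    · rw [h0]; linarith
    have hm0 : 0 < m := lt_of_le_of_ne (norm_nonneg _) (Ne.symm h0)
    set u := m⁻¹ • M x π L W v with hu
    have hu1 : ‖u‖ = 1 := by
      rw [hu, norm_smul, norm_inv, Real.norm_of_nonneg hm0.le, ← hm, inv_mul_cancel₀ h0]
    have hMu : M x π L W v = m • u := by rw [hu, smul_smul, mul_inv_cancel₀ h0, one_smul]
    have hπu : 0 ≤ π' u := by
      rw [hu, map_smul, smul_eq_mul]; exact mul_nonneg (inv_nonneg.2 hm0.le) hpos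
    set b := (-t) • (u + κ • y) with hb
    have hbn : ‖b‖ ≤ 2 * t := by
      rw [hb, norm_smul, norm_neg, Real.norm_of_nonneg ht0.le, mul_comm 2 t]
      refine mul_le_mul_of_nonneg_left ((norm_add_le _ _).trans ?_) ht0.le
      rw [norm_smul κ y, hy1, hu1, Real.norm_of_nonneg hκ0.le]
      have : κ ≤ 1 / 4 := min_le_left _ _
      linarith
    have hk : ‖y + b‖ < 1 := by
      have h := hball (y := b) (by rw [dist_zero_right]; linarith)
      rw [Real.norm_eq_abs, hy1] at h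
      have h' := (abs_le.1 h).2
      have e : π' b = -t * (π' u + κ) := by
        rw [hb, map_smul, map_add, map_smul π' κ y, hπy, smul_eq_mul, smul_eq_mul, mul_one]
      have h1 : κ / 4 * ‖b‖ ≤ κ / 4 * (2 * t) := by gcongr
      have h2 : 0 < t * κ := mul_pos ht0 hκ0
      have h3 : 0 ≤ t * π' u := mul_nonneg ht0.le hπu
      rw [e] at h'
      linarith
    obtain ⟨t', ht', hts⟩ := exists_beyond (x := y) hy1 hk
    set w := f.Gi (y - t' • (y - (y + b))) with hw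
    have hw1 : ‖w‖ = 1 := by rw [hw, f.norm_Gi, hts]
    have hyk : y - (y + b) = t • (u + κ • y) := by rw [hb]; module
    have hqu : ∀ q : Y →L[ℝ] ℝ, (∀ z, q z ≤ ‖z‖) → ‖x - w‖ - η ≤ q (y - f.G w) →
        1 - 2 * κ - η / t ≤ q u := by
      intro q hq h
      rw [← f.dist_unit hx hw1, hw, f.G_Gi, ← hy, sub_sub_cancel, hyk, norm_smul, norm_smul,
        Real.norm_of_nonneg (by linarith), Real.norm_of_nonneg ht0.le, map_smul, map_smul,
        smul_eq_mul, smul_eq_mul] at h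
      have h1 : t' * (t * ‖u + κ • y‖ - η) ≤ t' * (t * q (u + κ • y)) := by
        have := le_mul_of_one_le_left hη0 ht'
        linarith
      have h2 := le_of_mul_le_mul_left h1 (by linarith)
      have h3 : ‖u + κ • y‖ - η / t ≤ q (u + κ • y) := by
        refine le_of_mul_le_mul_left ?_ ht0
        rw [mul_sub, mul_div_cancel₀ _ ht0.ne']
        exact h2
      have h4 := norm_sub_norm_le u (-(κ • y))
      rw [sub_neg_eq_add, norm_neg, norm_smul κ y, hy1, hu1, Real.norm_of_nonneg hκ0.le] at h4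
      have h5 := mul_le_mul_of_nonneg_left (hq y) hκ0.le
      rw [hy1] at h5
      rw [map_add, map_smul q κ y, smul_eq_mul] at h3
      linarith
    have hfin : ∀ (p : X →L[ℝ] ℝ) (q : Y →L[ℝ] ℝ), (∀ z, p z ≤ ‖z‖) → (∀ z, q z ≤ ‖z‖) →
        (∀ τ, π τ = 0 → q (L τ) = p τ) → ‖x - w‖ - η ≤ q (y - f.G w) →
        π v * (q W - p x) ≤ η → m ≤ 1 + ε := by
      intro p q hp hq hc h hs
      have h1 := apply_M (W := W) (show π x = 1 by rw [hπ.2, hx]) hc v
      rw [hMu, map_smul, smul_eq_mul] at h1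
      have h2 := mul_le_mul_of_nonneg_left (hqu q hq h) hm0.le
      have h3 := (hp v).trans hv
      have h4 : m * (2 * κ + η / t) ≤ Bm * (2 * κ + η / t) := by gcongr
      linarith
    obtain ⟨⟨p₁, q₁, hp₁, hq₁, hc₁, -, hn₁, hs₁⟩, ⟨p₂, q₂, hp₂, hq₂, hc₂, -, hn₂, hs₂⟩⟩ :=
      hA w hw1
    have hv1 : |π v| ≤ 1 := (abs_le.2 ⟨hπ.ge v, hπ.le v⟩).trans hv
    rcases le_or_gt 0 (π v) with h | h
    · refine hfin p₁ q₁ hp₁ hq₁ hc₁ hn₁ ?_
      calc π v * (q₁ W - p₁ x) ≤ π v * η := by gcongr; linarith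
        _ ≤ η := mul_le_of_le_one_left hη0 (le_of_abs_le hv1)
    · refine hfin p₂ q₂ hp₂ hq₂ hc₂ hn₂ ?_
      calc π v * (q₂ W - p₂ x) ≤ π v * (-η) :=
            mul_le_mul_of_nonpos_left (by linarith) h.le
        _ ≤ η := by
          have := mul_le_of_le_one_left hη0 (neg_le_of_abs_le hv1 |> fun h' => (by linarith :
            -π v ≤ 1))
          linarith
  intro v hv
  rcases le_or_gt 0 (π' (M x π L W v)) with h | h
  · exact main v hv h
  · have := main (-v) (by rwa [norm_neg]) (by rw [map_neg, map_neg]; linarith)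
    rwa [map_neg, norm_neg] at this

/-- **Amplification.** A radial image is close to the true one, since otherwise an orbit
leaves the sphere. -/
lemma amplify (hx : ‖x‖ = 1) (hπ : Supp x π) {W : Y} {η ε : ℝ} (hη0 : 0 ≤ η) (hε0 : 0 < ε)
    (hε : ε ≤ 1 / 4) (hA : f.Approx x π L W η)
    (hM : ∀ v, ‖v‖ ≤ 1 → ‖M x π L W v‖ ≤ 1 + ε) {N : ℕ} (hN : 0 < N) :
    ‖f.G x - W‖ ≤ 2 / N + N * (9 * ε + 4 * η) := by
  set e := 9 * ε + 4 * η with he
  set y := f.G x with hy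
  set c := ‖y - W‖ with hc
  have hπx : π x = 1 := by rw [hπ.2, hx]
  suffices h : ∀ n : ℕ, n ≤ N → ∃ s : X, ‖s‖ = 1 ∧
      c - n * e ≤ ‖y - M x π L W s‖ - ‖x - s‖ ∧ (n : ℝ) * (c - N * e) ≤ ‖x - s‖ by
    obtain ⟨s, hs, -, hs'⟩ := h N le_rfl
    have h2 := norm_sub_le x s
    rw [hx, hs] at h2
    have hN0 : (0 : ℝ) < N := by exact_mod_cast hN
    have h3 : c - N * e ≤ 2 / N := by rw [le_div_iff₀ hN0]; linarith
    linarith
  intro n
  induction n with
  | zero =>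
    intro _
    refine ⟨x, hx, ?_, by simp⟩
    rw [M_apply, hπx, one_smul, sub_self, map_zero, zero_add, one_smul]
    simp [hc]
  | succ n ih =>
    intro hn
    obtain ⟨s, hs, hD, hl⟩ := ih (by omega)
    set w := M x π L W s with hw
    set D := ‖y - w‖ with hDdef
    have hw1 : ‖w‖ ≤ 1 + ε := hM s hs.le
    have hk : ‖(1 - 2 * ε) • w‖ < 1 := by
      rw [norm_smul, Real.norm_of_nonneg (by linarith)]
      have := mul_le_mul_of_nonneg_left hw1 (by linarith : (0 : ℝ) ≤ 1 - 2 * ε)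
      have := mul_pos hε0 hε0
      linarith
    have hkw : ‖(1 - 2 * ε) • w - w‖ ≤ 3 * ε := by
      rw [show (1 - 2 * ε) • w - w = (-2 * ε) • w by module, norm_smul, Real.norm_eq_abs,
        abs_of_nonpos (by linarith)]
      have := mul_le_mul_of_nonneg_left hw1 (by linarith : (0 : ℝ) ≤ 2 * ε)
      have := mul_le_mul_of_nonneg_left hε hε0.le
      linarith
    obtain ⟨t, ht, hts⟩ := exists_beyond (x := y) (z := (1 - 2 * ε) • w)
      (by rw [hy, f.norm_G, hx]) hk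
    set k := (1 - 2 * ε) • w with hkdef
    set s' := f.Gi (y - t • (y - k)) with hs'
    have hs'1 : ‖s'‖ = 1 := by rw [hs', f.norm_Gi, hts]
    have hD1 : D ≤ ‖y - k‖ + 3 * ε :=
      (norm_sub_le_norm_sub_add_norm_sub y k w).trans (by linarith)
    have hyG : y - f.G s' = t • (y - k) := by rw [hs', f.G_Gi, sub_sub_cancel]
    have hl' : ‖x - s'‖ = t * ‖y - k‖ := by
      rw [← f.dist_unit hx hs'1, ← hy, hyG, norm_smul, Real.norm_of_nonneg (by linarith)]
    have hl'' : D - 3 * ε ≤ ‖x - s'‖ := by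
      rw [hl']
      linarith [le_mul_of_one_le_left (norm_nonneg (y - k)) ht]
    have key : ∀ (p : X →L[ℝ] ℝ) (q : Y →L[ℝ] ℝ), (∀ z, p z ≤ ‖z‖) → (∀ z, q z ≤ ‖z‖) →
        (∀ τ, π τ = 0 → q (L τ) = p τ) → ‖x - s'‖ - η ≤ p (x - s') →
        ‖x - s'‖ - η ≤ q (y - f.G s') → -(2 * η) ≤ (π s - π s') * (q W - p x) →
        c - (n + 1 : ℕ) * e ≤ ‖y - M x π L W s'‖ - ‖x - s'‖ := by
      intro p q hp hq hcp h1 h2 h3
      rw [hyG, map_smul, smul_eq_mul, hl'] at h2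
      have h4 : t * (‖y - k‖ - η) ≤ t * q (y - k) := by
        have := le_mul_of_one_le_left hη0 ht
        linarith
      have h5 := le_of_mul_le_mul_left h4 (by linarith)
      have h6 := hq (w - k)
      rw [map_sub, norm_sub_rev] at h6
      have h7 := hq (y - M x π L W s')
      rw [map_sub, apply_M hπx hcp s'] at h7
      have h8 := apply_M (W := W) hπx hcp s
      rw [← hw] at h8
      have h9 := hp (x - s)
      rw [map_sub] at h9 h1
      rw [map_sub] at h5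
      push_cast
      linarith
    have hnN : (n : ℝ) * e ≤ (N - 1) * e := by
      have he0 : 0 ≤ e := by positivity
      refine mul_le_mul_of_nonneg_right ?_ he0
      have : (n : ℝ) + 1 ≤ N := by exact_mod_cast hn
      linarith
    refine ⟨s', hs'1, ?_, by push_cast; linarith⟩
    obtain ⟨⟨p₁, q₁, hp₁, hq₁, hc₁, ha₁, hn₁, hs₁⟩, ⟨p₂, q₂, hp₂, hq₂, hc₂, ha₂, hn₂, hs₂⟩⟩ :=
      hA s' hs'1
    have h1 := hπ.le s
    have h2 := hπ.ge s
    have h3 := hπ.le s'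
    have h4 := hπ.ge s'
    rw [hs] at h1 h2
    rw [hs'1] at h3 h4
    rcases le_or_gt (π s) (π s') with h | h
    · refine key p₁ q₁ hp₁ hq₁ hc₁ ha₁ hn₁ ?_
      calc -(2 * η) ≤ (π s - π s') * η := by
            have := mul_le_mul_of_nonneg_right (by linarith : -2 ≤ π s - π s') hη0
            linarith
        _ ≤ (π s - π s') * (q₁ W - p₁ x) :=
            mul_le_mul_of_nonpos_left (by linarith) (by linarith)
    · refine key p₂ q₂ hp₂ hq₂ hc₂ ha₂ hn₂ ?_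
      calc -(2 * η) ≤ (π s - π s') * (-η) := by
            have := mul_le_mul_of_nonneg_right (by linarith : π s - π s' ≤ 2) hη0
            linarith
        _ ≤ (π s - π s') * (q₂ W - p₂ x) :=
            mul_le_mul_of_nonneg_left (by linarith) (by linarith)

lemma le_of_unit_bound {A B : Type*} [NormedAddCommGroup A] [NormedSpace ℝ A]
    [NormedAddCommGroup B] [NormedSpace ℝ B] (T : A →L[ℝ] B)
    (hT : ∀ ε, 0 < ε → ∀ u, ‖u‖ ≤ 1 → ‖T u‖ ≤ 1 + ε) (u : A) : ‖T u‖ ≤ ‖u‖ := by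
  rcases eq_or_ne u 0 with rfl | hu
  · simp
  refine le_of_forall_pos_le_add fun ε hε => ?_
  have hn : 0 < ‖u‖ := norm_pos_iff.2 hu
  have h := hT (ε / ‖u‖) (by positivity) (‖u‖⁻¹ • u) (norm_smul_inv_norm hu).le
  rw [map_smul, norm_smul, norm_inv, norm_norm, inv_mul_le_iff₀ hn, mul_add, mul_one,
    mul_div_cancel₀ _ hn.ne'] at h
  exact h

/-- Second differences produce radial images. -/
lemma approx_of_sd (hx : ‖x‖ = 1) (hd : HasFDerivAt (fun z : X => ‖z‖) π x)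
    (hL : HasFDerivAt f.G L x) {a : X} (ha0 : a ≠ 0) {δ η : ℝ} (haδ : 32 * ‖a‖ ≤ δ)
    (hδ : δ ≤ 1 / 4) (hδη : 6 * δ ≤ η) (hΦ : 0 < sd x a)
    (hR : K0 * ‖a‖ ^ 2 / δ ≤ η * sd x a) :
    f.Approx x π L (f.G x - (sd x a)⁻¹ • f.E2 x a) η := by
  intro w hw
  have hW : ∀ q : Y →L[ℝ] ℝ, q (f.G x - (sd x a)⁻¹ • f.E2 x a) =
      q (f.G x) - q (f.E2 x a) / sd x a := fun q => by
    rw [map_sub, map_smul, smul_eq_mul, div_eq_inv_mul]
  obtain ⟨⟨s, hs, h₁⟩, ⟨s', hs', h₂⟩⟩ := f.exists_chords hx hw ha0 haδ hδ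
  obtain ⟨p, hp⟩ := exists_supp (x - s)
  obtain ⟨q, hq, hc⟩ := f.exists_compat hx hd hL hs hp
  obtain ⟨p', hp'⟩ := exists_supp (x - s')
  obtain ⟨q', hq', hc'⟩ := f.exists_compat hx hd hL hs' hp'
  obtain ⟨a1, a2, a3⟩ := h₁ p q hp hq
  obtain ⟨b1, b2, b3⟩ := h₂ p' q' hp' hq'
  refine ⟨⟨p', q', hp'.le, hq'.le, hc', by linarith, by linarith, ?_⟩,
    ⟨p, q, hp.le, hq.le, hc, by linarith, by linarith, ?_⟩⟩
  · rw [hW]
    have : q' (f.G x) - p' x - η ≤ q' (f.E2 x a) / sd x a := by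
      rw [le_div_iff₀ hΦ]; linarith
    linarith
  · rw [hW]
    have : q (f.E2 x a) / sd x a ≤ q (f.G x) - p x + η := by
      rw [div_le_iff₀ hΦ]; linarith
    linarith

variable [CompleteSpace X] [CompleteSpace Y]

/-- **Isometry at a rough point.** -/
theorem exists_isometry (hx : ‖x‖ = 1) (hd : HasFDerivAt (fun z : X => ‖z‖) π x) (hr : Rough x) :
    ∃ L : X ≃L[ℝ] Y, (∀ v, ‖L v‖ = ‖v‖) ∧ L x = f.G x ∧
      (∀ a : X, ‖a‖ ≤ 1 / 65536 →
        ‖f.G (x + a) - f.G x - L a‖ ≤ C0 * (defect x π a + 4 * ‖a‖ ^ 2)) ∧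
      ∀ η, 0 < η → f.Approx x π (L : X →L[ℝ] Y) (f.G x) η := by
  obtain ⟨L, hL, hLx, hd', hest⟩ := f.exists_deriv_equiv hx hd
  have hx0 : x ≠ 0 := fun h => by simp [h] at hx
  have hπ := supp_of_hasFDerivAt hx0 hd
  have hy1 : ‖f.G x‖ = 1 := by rw [f.norm_G, hx]
  have hA : ∀ η, 0 < η → f.Approx x π (L : X →L[ℝ] Y) (f.G x) η := by
    intro η hη
    set B : ℝ := 1 + 2 * C0 with hB
    obtain ⟨N, hN⟩ := exists_nat_gt (16 / η)
    have hN0 : 0 < N := by
      have : (0 : ℝ) < N := lt_trans (by positivity) hN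
      exact_mod_cast this
    have hN1 : (0 : ℝ) < N := by exact_mod_cast hN0
    have h2N : 2 / (N : ℝ) ≤ η / 8 := by
      rw [div_lt_iff₀ hη] at hN
      rw [div_le_iff₀ hN1]
      linarith
    set ε : ℝ := min (1 / 4) (η / (144 * N)) with hεdef
    have hε0 : 0 < ε := lt_min (by norm_num) (by positivity)
    have hεN : N * (9 * ε) ≤ η / 16 := by
      have h : ε ≤ η / (144 * N) := min_le_right _ _
      rw [le_div_iff₀ (by positivity)] at h
      linarith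
    obtain ⟨η₀, hη₀, hM⟩ :=
      f.exists_norm_M_le (L := (L : X →L[ℝ] Y)) hx hπ hd' B hε0
    set η₁ : ℝ := min η₀ (η / (64 * N)) with hη₁
    have hη₁0 : 0 < η₁ := lt_min hη₀ (by positivity)
    have hη₁N : N * (4 * η₁) ≤ η / 16 := by
      have h : η₁ ≤ η / (64 * N) := min_le_right _ _
      rw [le_div_iff₀ (by positivity)] at h
      linarith
    have hη₁η : η₁ ≤ η / 2 := by
      refine (min_le_right _ _).trans (div_le_div_of_nonneg_left hη.le two_pos ?_)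
      have : (1 : ℝ) ≤ N := by exact_mod_cast hN0
      linarith
    set δ : ℝ := min (1 / 4) (η₁ / 6) with hδ
    have hδ0 : 0 < δ := lt_min (by norm_num) (by linarith)
    obtain ⟨a, ha, hsd⟩ := hr (max 1 (K0 / (δ * η₁))) (min (δ / 32) (1 / 32768))
      (lt_min (by positivity) (by norm_num))
    have ha1 : ‖a‖ < δ / 32 := ha.trans_le (min_le_left _ _)
    have ha2 : ‖a‖ ≤ 1 / 32768 := ha.le.trans (min_le_right _ _)
    have hge1 : ‖a‖ ^ 2 ≤ sd x a := by
      have := mul_le_mul_of_nonneg_right (le_max_left 1 (K0 / (δ * η₁))) (sq_nonneg ‖a‖)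
      linarith
    have hge2 : K0 / (δ * η₁) * ‖a‖ ^ 2 ≤ sd x a := by
      have := mul_le_mul_of_nonneg_right (le_max_right 1 (K0 / (δ * η₁))) (sq_nonneg ‖a‖)
      linarith
    have hΦ : 0 < sd x a := lt_of_le_of_lt (by positivity) hsd
    have ha0 : a ≠ 0 := by
      rintro rfl
      simp [sd, hx, two_mul] at hΦ
      linarith
    have hR : K0 * ‖a‖ ^ 2 / δ ≤ η₁ * sd x a := by
      have h := mul_le_mul_of_nonneg_left hge2 hη₁0.le
      rwa [show η₁ * (K0 / (δ * η₁) * ‖a‖ ^ 2) = K0 * ‖a‖ ^ 2 / δ by field_simp] at h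
    have hAp := f.approx_of_sd (η := η₁) hx hd hL ha0 (by linarith : 32 * ‖a‖ ≤ δ)
      (min_le_left _ _) (by linarith [min_le_right (1 / 4 : ℝ) (η₁ / 6)]) hΦ hR
    set W := f.G x - (sd x a)⁻¹ • f.E2 x a with hW
    have hWB : ‖W‖ ≤ B := by
      refine (norm_sub_le _ _).trans ?_
      rw [hy1, norm_smul, norm_inv, Real.norm_of_nonneg hΦ.le, ← div_eq_inv_mul, hB]
      refine add_le_add le_rfl ((div_le_iff₀ hΦ).2 ((f.norm_E2_le hx ha2).trans ?_))
      have := mul_le_mul_of_nonneg_left hge1 C0_pos.le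
      linarith
    have hc := f.amplify hx hπ hη₁0.le hε0 (min_le_left _ _) hAp
      (hM W hWB η₁ hη₁0.le (min_le_left _ _) hAp) hN0
    have hcW : ‖f.G x - W‖ ≤ η / 4 := by linarith
    have hq : ∀ q : Y →L[ℝ] ℝ, (∀ v, q v ≤ ‖v‖) → |q (f.G x) - q W| ≤ η / 4 := fun q hq => by
      have h1 := hq (f.G x - W)
      have h2 := hq (W - f.G x)
      rw [map_sub] at h1 h2
      rw [norm_sub_rev] at h2
      rw [abs_le]
      constructor <;> linarith
    intro w hw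
    obtain ⟨⟨p, q, hp, hq1, hc1, e1, e2, e3⟩, ⟨p', q', hp', hq1', hc1', e1', e2', e3'⟩⟩ :=
      hAp w hw
    exact ⟨⟨p, q, hp, hq1, hc1, by linarith, by linarith,
      by linarith [(abs_le.1 (hq q hq1)).2]⟩,
      ⟨p', q', hp', hq1', hc1', by linarith, by linarith,
      by linarith [(abs_le.1 (hq q' hq1')).1]⟩⟩
  refine ⟨L, fun v => ?_, hLx, hest, hA⟩
  refine le_antisymm (le_of_unit_bound (L : X →L[ℝ] Y) (fun ε hε u hu => ?_) v) ?_
  · obtain ⟨η₀, hη₀, hM⟩ := f.exists_norm_M_le (L := (L : X →L[ℝ] Y)) hx hπ hd' 1 hε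
    have h := hM (f.G x) hy1.le η₀ hη₀.le le_rfl (hA η₀ hη₀) u hu
    simpa [M_apply, hLx, map_sub] using h
  · have hπ'L : ∀ τ', (π.comp (L.symm : Y →L[ℝ] X)) τ' = π (L.symm τ') := fun _ => rfl
    have hA' : ∀ η, 0 < η → f.symm.Approx (f.G x) (π.comp (L.symm : Y →L[ℝ] X))
        (L.symm : Y →L[ℝ] X) x η := by
      intro η hη w' hw'
      have hw : ‖f.Gi w'‖ = 1 := by rw [f.norm_Gi, hw']
      have hdist : ‖f.G x - w'‖ = ‖x - f.Gi w'‖ := by
        conv_lhs => rw [← f.G_Gi w']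
        exact f.dist_unit hx hw
      obtain ⟨⟨p, q, hp, hq1, hc1, e1, e2, e3⟩, ⟨p', q', hp', hq1', hc1', e1', e2', e3'⟩⟩ :=
        hA η hη (f.Gi w') hw
      rw [f.G_Gi] at e2 e2'
      refine ⟨⟨q', p', hq1', hp', fun τ hτ => ?_, ?_, ?_, ?_⟩,
        ⟨q, p, hq1, hp, fun τ hτ => ?_, ?_, ?_, ?_⟩⟩
      all_goals try simp only [symm_G, f.Gi_G, hdist]
      all_goals first
        | linarith
        | (have h := hc1 (L.symm τ) hτ; simpa using h.symm)
        | (have h := hc1' (L.symm τ) hτ; simpa using h.symm)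
    have hy0 : f.G x ≠ 0 := fun h => by simp [h] at hy1
    have hd'' : HasFDerivAt (fun z : X => ‖z‖) π (f.symm.G (f.G x)) := by
      rwa [symm_G, f.Gi_G]
    have hπ' := supp_of_hasFDerivAt hy0 hd'
    have h := le_of_unit_bound (L.symm : Y →L[ℝ] X) (fun ε hε u hu => ?_) (L v)
    · simpa using h
    obtain ⟨η₀, hη₀, hM⟩ :=
      f.symm.exists_norm_M_le (L := (L.symm : Y →L[ℝ] X)) hy1 hπ' hd'' 1 hε
    have h := hM x hx.le η₀ hη₀.le le_rfl (hA' η₀ hη₀) u hu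
    have hs : L.symm (f.G x) = x := by rw [← hLx, L.symm_apply_apply]
    simpa [M_apply, hs, map_sub] using h

end PIso

end Vale.Agent.P084.Orbit
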