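import Mathlib

/-!
P084 (Tingley's problem), library: the universal second difference bound for the homogeneous
extension of a surjective isometry of unit spheres. No assumption on either space is used.
-/

namespace Vale.Agent.P084.Orbit

open Filter Topology Metric

variable {X Y : Type*} [NormedAddCommGroup X] [NormedSpace ℝ X] [NormedAddCommGroup Y]
  [NormedSpace ℝ Y]

/-- A positively homogeneous bijection which preserves norms and restricts to an isometry of the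
unit spheres. -/
structure PIso (X Y : Type*) [NormedAddCommGroup X] [NormedSpace ℝ X] [NormedAddCommGroup Y]
    [NormedSpace ℝ Y] where
  G : X → Y
  Gi : Y → X
  Gi_G : ∀ v, Gi (G v) = v
  G_Gi : ∀ w, G (Gi w) = w
  norm_G : ∀ v, ‖G v‖ = ‖v‖
  G_smul : ∀ (t : ℝ), 0 ≤ t → ∀ v, G (t • v) = t • G v
  key : ∀ v x, ‖x‖ = 1 → ‖G v - ‖v‖ • G x‖ = ‖v - ‖v‖ • x‖

namespace PIso

variable (f : PIso X Y)

lemma norm_Gi (w : Y) : ‖f.Gi w‖ = ‖w‖ := by rw [← f.norm_G, f.G_Gi]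

lemma G_injective : Function.Injective f.G := fun a b h => by rw [← f.Gi_G a, ← f.Gi_G b, h]

lemma Gi_smul (t : ℝ) (ht : 0 ≤ t) (w : Y) : f.Gi (t • w) = t • f.Gi w :=
  f.G_injective (by rw [f.G_Gi, f.G_smul t ht, f.G_Gi])

/-- The inverse. -/
def symm : PIso Y X where
  G := f.Gi
  Gi := f.G
  Gi_G := f.G_Gi
  G_Gi := f.Gi_G
  norm_G := f.norm_Gi
  G_smul := f.Gi_smul
  key := fun w z hz => by
    have h := f.key (f.Gi w) (f.Gi z) (by rw [f.norm_Gi, hz])
    rw [f.G_Gi, f.G_Gi, f.norm_Gi] at h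
    exact h.symm

@[simp] lemma symm_G : f.symm.G = f.Gi := rfl

@[simp] lemma symm_Gi : f.symm.Gi = f.G := rfl

lemma G_zero : f.G 0 = 0 := norm_eq_zero.1 (by rw [f.norm_G, norm_zero])

lemma dist_unit {x s : X} (hx : ‖x‖ = 1) (hs : ‖s‖ = 1) :
    ‖f.G x - f.G s‖ = ‖x - s‖ := by simpa [hx] using f.key x s hs

lemma norm_G_sub_le (v v' : X) : ‖f.G v - f.G v'‖ ≤ 3 * ‖v - v'‖ := by
  rcases eq_or_ne v' 0 with rfl | hv'
  · simp only [G_zero, sub_zero, f.norm_G]
    linarith [norm_nonneg v]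
  have hu : ‖‖v'‖⁻¹ • v'‖ = 1 := norm_smul_inv_norm hv'
  set u := ‖v'‖⁻¹ • v' with hudef
  have hv'' : v' = ‖v'‖ • u := by simp [u, smul_smul, hv']
  have hGv' : f.G v' = ‖v'‖ • f.G u := by rw [← f.G_smul _ (norm_nonneg _), ← hv'']
  have habs : |‖v‖ - ‖v'‖| ≤ ‖v - v'‖ := abs_norm_sub_norm_le v v'
  calc ‖f.G v - f.G v'‖ = ‖(f.G v - ‖v‖ • f.G u) + (‖v‖ - ‖v'‖) • f.G u‖ := by
        rw [hGv']; congr 1; module
    _ ≤ ‖v - ‖v‖ • u‖ + |‖v‖ - ‖v'‖| := (norm_add_le _ _).trans <| by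
        rw [f.key v u hu, norm_smul, f.norm_G, hu, mul_one, Real.norm_eq_abs]
    _ ≤ (‖v - v'‖ + |‖v‖ - ‖v'‖|) + |‖v‖ - ‖v'‖| := by
        gcongr
        have e : v - ‖v‖ • u = (v - ‖v'‖ • u) + (‖v'‖ - ‖v‖) • u := by module
        rw [← hv''] at e
        calc ‖v - ‖v‖ • u‖ = ‖(v - v') + (‖v'‖ - ‖v‖) • u‖ := by rw [e]
          _ ≤ ‖v - v'‖ + |‖v‖ - ‖v'‖| := (norm_add_le _ _).trans <| by
              rw [norm_smul, hu, mul_one, Real.norm_eq_abs, abs_sub_comm]
    _ ≤ 3 * ‖v - v'‖ := by linarith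

lemma continuous_G : Continuous f.G :=
  (LipschitzWith.of_dist_le_mul (K := 3) fun v w => by
    simpa [dist_eq_norm] using f.norm_G_sub_le v w).continuous

end PIso

/-! ### Supporting functionals and second differences of the norm -/

/-- `p` supports the norm at `u`. -/
def Supp (u : X) (p : X →L[ℝ] ℝ) : Prop := (∀ v, p v ≤ ‖v‖) ∧ p u = ‖u‖

lemma exists_supp (u : X) : ∃ p, Supp u p := by
  obtain ⟨g, hg1, hg2⟩ := exists_dual_vector'' ℝ u
  exact ⟨g, fun v => (Real.le_norm_self _).trans ((g.le_of_opNorm_le hg1 v).trans_eq (one_mul _)),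
    hg2⟩

lemma Supp.le {u : X} {p : X →L[ℝ] ℝ} (h : Supp u p) (v : X) : p v ≤ ‖v‖ := h.1 v

lemma Supp.ge {u : X} {p : X →L[ℝ] ℝ} (h : Supp u p) (v : X) : -‖v‖ ≤ p v := by
  have := h.1 (-v); rw [map_neg, norm_neg] at this; linarith

/-- The symmetric second difference of the norm. -/
def sd (u b : X) : ℝ := ‖u + b‖ + ‖u - b‖ - 2 * ‖u‖

lemma sd_nonneg (u b : X) : 0 ≤ sd u b := by
  have h := norm_add_le (u + b) (u - b)
  rw [show u + b + (u - b) = (2 : ℝ) • u by module, norm_smul, Real.norm_two] at h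
  unfold sd; linarith

lemma sd_le (u b : X) : sd u b ≤ 2 * ‖b‖ := by
  have h1 := norm_add_le u b
  have h2 := norm_sub_le u b
  unfold sd; linarith

lemma norm_add_le_sd {u : X} {p : X →L[ℝ] ℝ} (hp : Supp u p) (b : X) :
    ‖u + b‖ ≤ ‖u‖ + p b + sd u b := by
  have h := hp.1 (u - b)
  rw [map_sub, hp.2] at h
  unfold sd; linarith

lemma norm_smul_add_le_sd {u : X} {p : X →L[ℝ] ℝ} (hp : Supp u p) {n : ℝ} (hn : 0 < n) (b : X) :
    ‖n • u + b‖ ≤ n * ‖u‖ + p b + n * sd u (n⁻¹ • b) := by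
  have h := mul_le_mul_of_nonneg_left (norm_add_le_sd hp (n⁻¹ • b)) hn.le
  have e : n * ‖u + n⁻¹ • b‖ = ‖n • u + b‖ := by
    rw [← Real.norm_of_nonneg hn.le, ← norm_smul, smul_add, smul_smul, Real.norm_of_nonneg hn.le,
      mul_inv_cancel₀ hn.ne', one_smul]
  rw [e, map_smul, smul_eq_mul] at h
  have e' : n * (n⁻¹ * p b) = p b := by field_simp
  linarith

lemma sd_smul_le {t : ℝ} (ht : 1 ≤ t) (u b : X) : sd (t • u) b ≤ sd u b := by
  have h1 := norm_add_le ((t - 1) • u) (u + b)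
  have h2 := norm_add_le ((t - 1) • u) (u - b)
  rw [norm_smul, Real.norm_of_nonneg (by linarith)] at h1 h2
  rw [show (t - 1) • u + (u + b) = t • u + b by module] at h1
  rw [show (t - 1) • u + (u - b) = t • u - b by module] at h2
  unfold sd
  rw [norm_smul, Real.norm_of_nonneg (by linarith)]
  linarith

lemma sum_sd_le (u b : X) (m : ℕ) :
    ∑ i ∈ Finset.range m, sd (u + (i : ℝ) • b) b ≤ 2 * ‖b‖ := by
  set g : ℕ → ℝ := fun i => ‖u + (i : ℝ) • b‖ - ‖u + (i : ℝ) • b - b‖ with hg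
  have e : ∀ i : ℕ, sd (u + (i : ℝ) • b) b = g (i + 1) - g i := by
    intro i
    simp only [sd, hg]
    rw [show u + ((i + 1 : ℕ) : ℝ) • b = u + (i : ℝ) • b + b by push_cast; module,
      add_sub_cancel_right]
    ring
  simp_rw [e]
  rw [Finset.sum_range_sub]
  have h : ∀ i : ℕ, |g i| ≤ ‖b‖ := fun i =>
    (abs_norm_sub_norm_le _ _).trans_eq (by simp)
  linarith [(abs_le.1 (h m)).2, (abs_le.1 (h 0)).1]

/-- Pigeonhole on a grid: close to any point both second differences are quadratically small. -/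
lemma exists_sd_small (u b₁ b₂ : X) {δ B : ℝ} (hB : 0 < B) (h₁ : ‖b₁‖ ≤ B) (h₂ : ‖b₂‖ ≤ B)
    (hBδ : 2 * B ≤ δ) :
    ∃ P : X, ‖P - u‖ ≤ δ ∧ sd P b₁ + sd P b₂ ≤ 16 * B ^ 2 / δ := by
  have hδ : 0 < δ := by linarith
  set m := ⌊δ / (2 * B)⌋₊ with hm
  have hm1 : 1 ≤ m := Nat.le_floor (by rw [Nat.cast_one, one_le_div (by linarith)]; linarith)
  have hmle : (m : ℝ) * (2 * B) ≤ δ :=
    (le_div_iff₀ (by linarith)).1 (Nat.floor_le (by positivity))
  have hmge : δ / (4 * B) ≤ m := by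
    have h := Nat.lt_floor_add_one (δ / (2 * B))
    rw [← hm] at h
    have h' : (1 : ℝ) ≤ m := by exact_mod_cast hm1
    have e : δ / (4 * B) = δ / (2 * B) / 2 := by field_simp; ring
    linarith
  set S := Finset.range m ×ˢ Finset.range m
  set P : ℕ × ℕ → X := fun i => u + (i.1 : ℝ) • b₁ + (i.2 : ℝ) • b₂ with hP
  have hne : S.Nonempty := Finset.Nonempty.product (Finset.nonempty_range_iff.2 (by omega))
    (Finset.nonempty_range_iff.2 (by omega))
  have hsum : ∑ i ∈ S, (sd (P i) b₁ + sd (P i) b₂) ≤ ∑ _i ∈ S, 4 * B / m := by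
    rw [Finset.sum_const, Finset.card_product, Finset.card_range, nsmul_eq_mul,
      Finset.sum_add_distrib, Finset.sum_product, Finset.sum_product]
    have i1 : ∑ a ∈ Finset.range m, ∑ c ∈ Finset.range m, sd (P (a, c)) b₁ ≤ m * (2 * B) := by
      rw [Finset.sum_comm]
      refine (Finset.sum_le_sum (g := fun _ => 2 * B) fun c _ => ?_).trans_eq (by simp)
      refine le_trans ?_ ((sum_sd_le (u + (c : ℝ) • b₂) b₁ m).trans (by linarith))
      refine le_of_eq (Finset.sum_congr rfl fun a _ => ?_)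
      simp only [hP]; congr 1; module
    have i2 : ∑ a ∈ Finset.range m, ∑ c ∈ Finset.range m, sd (P (a, c)) b₂ ≤ m * (2 * B) := by
      refine (Finset.sum_le_sum (g := fun _ => 2 * B) fun a _ => ?_).trans_eq (by simp)
      exact (sum_sd_le (u + (a : ℝ) • b₁) b₂ m).trans (by linarith)
    have hm0 : (m : ℝ) ≠ 0 := by exact_mod_cast (by omega : m ≠ 0)
    push_cast
    rw [show (m : ℝ) * m * (4 * B / m) = m * (2 * B) + m * (2 * B) by field_simp; ring]
    exact add_le_add i1 i2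
  obtain ⟨i, hi, hle⟩ := Finset.exists_le_of_sum_le hne hsum
  refine ⟨P i, ?_, hle.trans ?_⟩
  · rw [Finset.mem_product, Finset.mem_range, Finset.mem_range] at hi
    have a1 : (i.1 : ℝ) ≤ m := by exact_mod_cast hi.1.le
    have a2 : (i.2 : ℝ) ≤ m := by exact_mod_cast hi.2.le
    calc ‖P i - u‖ = ‖(i.1 : ℝ) • b₁ + (i.2 : ℝ) • b₂‖ := by simp only [hP]; congr 1; module
      _ ≤ (i.1 : ℝ) * ‖b₁‖ + (i.2 : ℝ) * ‖b₂‖ := (norm_add_le _ _).trans_eq (by
          rw [norm_smul, norm_smul, Real.norm_of_nonneg (Nat.cast_nonneg _),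
            Real.norm_of_nonneg (Nat.cast_nonneg _)])
      _ ≤ (m : ℝ) * B + m * B := by gcongr
      _ ≤ δ := by linarith
  · calc 4 * B / m ≤ 4 * B / (δ / (4 * B)) := by gcongr
      _ = 16 * B ^ 2 / δ := by field_simp; ring

/-- A ray from a sphere point through an interior point meets the sphere again. -/
lemma exists_beyond {x z : X} (hx : ‖x‖ = 1) (hz : ‖z‖ < 1) :
    ∃ t : ℝ, 1 ≤ t ∧ ‖x - t • (x - z)‖ = 1 := by
  have hne : x - z ≠ 0 := fun h => by rw [sub_eq_zero] at h; subst h; linarith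
  have hd : 0 < ‖x - z‖ := norm_pos_iff.2 hne
  set t₁ : ℝ := max 1 (2 / ‖x - z‖) with ht₁
  have h1 : ‖x - (1 : ℝ) • (x - z)‖ ≤ 1 := by rw [one_smul, sub_sub_cancel]; exact hz.le
  have h2 : 1 ≤ ‖x - t₁ • (x - z)‖ := by
    have h := norm_sub_norm_le (t₁ • (x - z)) x
    rw [norm_smul, Real.norm_of_nonneg (by positivity), hx, norm_sub_rev (t₁ • (x - z))] at h
    have : 2 ≤ t₁ * ‖x - z‖ := by
      rw [← div_le_iff₀ hd]; exact le_max_right _ _
    linarith
  have hc : Continuous fun t : ℝ => ‖x - t • (x - z)‖ := by fun_prop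
  obtain ⟨t, ht, he⟩ := intermediate_value_Icc (le_max_left 1 _) hc.continuousOn ⟨h1, h2⟩
  exact ⟨t, ht.1, he⟩

/-- The extension of a chord supports the original chord up to twice the displacement. -/
lemma supp_beyond {x z w : X} {t ε : ℝ} (ht : 1 ≤ t) (hzw : ‖z - w‖ ≤ ε)
    {p : X →L[ℝ] ℝ} (hp : Supp (t • (x - z)) p) :
    ‖x - w‖ - 2 * ε ≤ p (x - w) := by
  have h1 : p (x - z) = ‖x - z‖ := by
    have h := hp.2
    rw [map_smul, smul_eq_mul, norm_smul, Real.norm_of_nonneg (by linarith)] at h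
    exact mul_left_cancel₀ (by linarith) h
  have h2 := hp.ge (z - w)
  have h3 := norm_sub_le_norm_sub_add_norm_sub x z w
  have e : p (x - w) = p (x - z) + p (z - w) := by rw [← map_add, sub_add_sub_cancel]
  linarith

namespace PIso

variable (f : PIso X Y)

/-- The second difference of the extension. -/
def E2 (x a : X) : Y := f.G (x + a) + f.G (x - a) - (2 : ℝ) • f.G x

/-- One sided comparison at a chord: the remainder lives in the source norm. -/
lemma core_upper {x a s : X} (hx : ‖x‖ = 1) (hs : ‖s‖ = 1) (ha : ‖a‖ ≤ 1 / 2)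
    {p : X →L[ℝ] ℝ} {q : Y →L[ℝ] ℝ} (hp : Supp (x - s) p) (hq : Supp (f.G x - f.G s) q) :
    q (f.E2 x a) ≤ sd x a * (q (f.G x) - p x) +
      2 * (sd (x - s) (‖x + a‖⁻¹ • (a - (‖x + a‖ - 1) • x)) +
        sd (x - s) (‖x - a‖⁻¹ • (-a - (‖x - a‖ - 1) • x))) := by
  have one : ∀ c : X, ‖c‖ ≤ 1 / 2 → q (f.G (x + c)) - ‖x + c‖ * q (f.G s) ≤
      ‖x + c‖ * ‖x - s‖ + p c - (‖x + c‖ - 1) * p x +
        2 * sd (x - s) (‖x + c‖⁻¹ • (c - (‖x + c‖ - 1) • x)) := by
    intro c hc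
    set n := ‖x + c‖ with hn
    have hn1 : 1 / 2 ≤ n := by
      have := norm_sub_norm_le x (-c)
      rw [sub_neg_eq_add, norm_neg, hx] at this
      linarith
    have hn2 : n ≤ 2 := by
      have := norm_add_le x c
      rw [hx] at this
      linarith
    have h1 := hq.le (f.G (x + c) - n • f.G s)
    rw [map_sub, map_smul, smul_eq_mul, f.key (x + c) s hs] at h1
    have e : x + c - n • s = n • (x - s) + (c - (n - 1) • x) := by module
    have h2 := norm_smul_add_le_sd hp (n := n) (by linarith) (c - (n - 1) • x)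
    rw [← e, map_sub, map_smul, smul_eq_mul] at h2
    have h3 := mul_le_mul_of_nonneg_right hn2
      (sd_nonneg (x - s) (n⁻¹ • (c - (n - 1) • x)))
    linarith
  have h1 := one a ha
  have h2 := one (-a) (by rwa [norm_neg])
  rw [← sub_eq_add_neg, map_neg] at h2
  have hl : q (f.G x) - q (f.G s) = ‖x - s‖ := by rw [← map_sub, hq.2, f.dist_unit hx hs]
  simp only [E2, map_sub, map_add, map_smul, smul_eq_mul, sd, hx] at *
  linear_combination h1 + h2 - (‖x + a‖ + ‖x - a‖) * hl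

/-- One sided comparison at a chord: the remainder lives in the target norm. -/
lemma core_lower {x a s : X} (hx : ‖x‖ = 1) (hs : ‖s‖ = 1) (ha : ‖a‖ ≤ 1 / 2)
    {p : X →L[ℝ] ℝ} {q : Y →L[ℝ] ℝ} (hp : Supp (x - s) p) (hq : Supp (f.G x - f.G s) q) :
    sd x a * (q (f.G x) - p x) -
      2 * (sd (f.G x - f.G s) (‖x + a‖⁻¹ • (f.G (x + a) - ‖x + a‖ • f.G x)) +
        sd (f.G x - f.G s) (‖x - a‖⁻¹ • (f.G (x - a) - ‖x - a‖ • f.G x))) ≤ q (f.E2 x a) := by
  have one : ∀ c : X, ‖c‖ ≤ 1 / 2 → p x + p c - ‖x + c‖ * p s ≤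
      ‖x + c‖ * ‖x - s‖ + q (f.G (x + c)) - ‖x + c‖ * q (f.G x) +
        2 * sd (f.G x - f.G s) (‖x + c‖⁻¹ • (f.G (x + c) - ‖x + c‖ • f.G x)) := by
    intro c hc
    set n := ‖x + c‖ with hn
    have hn1 : 1 / 2 ≤ n := by
      have := norm_sub_norm_le x (-c)
      rw [sub_neg_eq_add, norm_neg, hx] at this
      linarith
    have hn2 : n ≤ 2 := by
      have := norm_add_le x c
      rw [hx] at this
      linarith
    have h1 := hp.le (x + c - n • s)
    rw [map_sub, map_add, map_smul, smul_eq_mul, ← f.key (x + c) s hs] at h1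
    have e : f.G (x + c) - n • f.G s = n • (f.G x - f.G s) + (f.G (x + c) - n • f.G x) := by
      module
    have h2 := norm_smul_add_le_sd hq (n := n) (by linarith) (f.G (x + c) - n • f.G x)
    rw [← e, map_sub, map_smul, smul_eq_mul, f.dist_unit hx hs] at h2
    have h3 := mul_le_mul_of_nonneg_right hn2
      (sd_nonneg (f.G x - f.G s) (n⁻¹ • (f.G (x + c) - n • f.G x)))
    linarith
  have h1 := one a ha
  have h2 := one (-a) (by rwa [norm_neg])
  rw [← sub_eq_add_neg, map_neg] at h2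
  have hl : p x - p s = ‖x - s‖ := by rw [← map_sub, hp.2]
  simp only [E2, map_sub, map_add, map_smul, smul_eq_mul, sd, hx] at *
  linear_combination h1 + h2 - (‖x + a‖ + ‖x - a‖) * hl

/-- The constant of the grid bound. -/
def K0 : ℝ := 4096

/-- Near every chord there are chords at which the comparison holds with quadratic error, in
each direction, whatever supporting functionals are used there. -/
lemma exists_chords {x a w : X} {δ : ℝ} (hx : ‖x‖ = 1) (hw : ‖w‖ = 1) (ha0 : a ≠ 0)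
    (haδ : 32 * ‖a‖ ≤ δ) (hδ : δ ≤ 1 / 4) :
    (∃ s, ‖s‖ = 1 ∧ ∀ p q, Supp (x - s) p → Supp (f.G x - f.G s) q →
      ‖x - w‖ - 6 * δ ≤ p (x - w) ∧ ‖x - w‖ - 6 * δ ≤ q (f.G x - f.G w) ∧
        q (f.E2 x a) ≤ sd x a * (q (f.G x) - p x) + K0 * ‖a‖ ^ 2 / δ) ∧
    ∃ s, ‖s‖ = 1 ∧ ∀ p q, Supp (x - s) p → Supp (f.G x - f.G s) q →
      ‖x - w‖ - 6 * δ ≤ p (x - w) ∧ ‖x - w‖ - 6 * δ ≤ q (f.G x - f.G w) ∧
        sd x a * (q (f.G x) - p x) - K0 * ‖a‖ ^ 2 / δ ≤ q (f.E2 x a) := by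
  have har : 0 < ‖a‖ := norm_pos_iff.2 ha0
  have hah : ‖a‖ ≤ 1 / 2 := by linarith
  -- elementary bounds for the two perturbed norms
  have hn : ∀ c : X, ‖c‖ = ‖a‖ → 1 / 2 ≤ ‖x + c‖ ∧ |‖x + c‖ - 1| ≤ ‖a‖ := by
    intro c hc
    have h := abs_norm_sub_norm_le (x + c) x
    rw [hx, add_sub_cancel_left, hc] at h
    exact ⟨by linarith [(abs_le.1 h).1], h⟩
  have hscale : ∀ (n B c : ℝ), 1 / 2 ≤ n → 0 ≤ c → c ≤ B → ‖n⁻¹‖ * c ≤ 2 * B := by
    intro n B c hn hc hb
    rw [norm_inv, Real.norm_of_nonneg (by linarith)]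
    have : n⁻¹ ≤ 2 := by rw [inv_le_comm₀ (by linarith) two_pos]; linarith
    exact mul_le_mul this hb hc two_pos.le
  have hbX : ∀ c : X, ‖c‖ = ‖a‖ →
      ‖‖x + c‖⁻¹ • (c - (‖x + c‖ - 1) • x)‖ ≤ 4 * ‖a‖ := by
    intro c hc
    obtain ⟨h1, h2⟩ := hn c hc
    rw [norm_smul]
    refine (hscale _ (2 * ‖a‖) _ h1 (norm_nonneg _) ((norm_sub_le _ _).trans ?_)).trans (by linarith)
    rw [hc, norm_smul, hx, Real.norm_eq_abs, mul_one]
    linarith
  have hbY : ∀ c : X, ‖c‖ = ‖a‖ →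
      ‖‖x + c‖⁻¹ • (f.G (x + c) - ‖x + c‖ • f.G x)‖ ≤ 8 * ‖a‖ := by
    intro c hc
    obtain ⟨h1, h2⟩ := hn c hc
    rw [norm_smul]
    refine (hscale _ (4 * ‖a‖) _ h1 (norm_nonneg _) ?_).trans (by linarith)
    have e : f.G (x + c) - ‖x + c‖ • f.G x =
        (f.G (x + c) - f.G x) + (1 - ‖x + c‖) • f.G x := by module
    rw [e]
    refine (norm_add_le _ _).trans ?_
    rw [norm_smul, f.norm_G, hx, Real.norm_eq_abs, mul_one, abs_sub_comm]
    have := f.norm_G_sub_le (x + c) x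
    rw [add_sub_cancel_left, hc] at this
    linarith
  have hsmall : ∀ B : ℝ, B ≤ 8 * ‖a‖ → 0 < B → 2 * (16 * B ^ 2 / δ) ≤ K0 * ‖a‖ ^ 2 / δ := by
    intro B hB hB0
    rw [show 2 * (16 * B ^ 2 / δ) = 32 * B ^ 2 / δ by ring, K0]
    refine div_le_div_of_nonneg_right ?_ (by linarith)
    nlinarith [pow_le_pow_left₀ hB0.le hB 2, sq_nonneg ‖a‖]
  refine ⟨?_, ?_⟩
  · obtain ⟨P, hP, hsd⟩ := exists_sd_small (x - (1 - 2 * δ) • w)
      (‖x + a‖⁻¹ • (a - (‖x + a‖ - 1) • x))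
      (‖x + -a‖⁻¹ • (-a - (‖x + -a‖ - 1) • x)) (δ := δ) (B := 4 * ‖a‖) (by linarith)
      (hbX a rfl) (hbX (-a) (norm_neg a)) (by linarith)
    rw [← sub_eq_add_neg] at hsd
    set z := x - P with hz
    have hzw : ‖z - (1 - 2 * δ) • w‖ ≤ δ := by
      rw [norm_sub_rev] at hP
      rwa [hz, show x - P - (1 - 2 * δ) • w = x - (1 - 2 * δ) • w - P by abel]
    have hzlt : ‖z‖ < 1 := by
      have h := norm_sub_norm_le z ((1 - 2 * δ) • w)
      rw [norm_smul, hw, Real.norm_of_nonneg (by linarith), mul_one] at h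
      linarith
    have hzw' : ‖z - w‖ ≤ 3 * δ := by
      have h := norm_add_le (z - (1 - 2 * δ) • w) ((-2 * δ) • w)
      rw [show z - (1 - 2 * δ) • w + (-2 * δ) • w = z - w by module, norm_smul, hw, mul_one,
        Real.norm_eq_abs, abs_of_nonpos (by linarith)] at h
      linarith
    obtain ⟨t, ht, hts⟩ := exists_beyond hx hzlt
    refine ⟨x - t • (x - z), hts, fun p q hp hq => ?_⟩
    have hp' : Supp (t • (x - z)) p := by simpa using hp
    refine ⟨by linarith [supp_beyond ht hzw' hp'], ?_, ?_⟩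
    · have h1 := hq.ge (f.G (x - t • (x - z)) - f.G w)
      rw [f.dist_unit hts hw] at h1
      have e : q (f.G x - f.G w) = q (f.G x - f.G (x - t • (x - z))) +
          q (f.G (x - t • (x - z)) - f.G w) := by rw [← map_add, sub_add_sub_cancel]
      rw [hq.2, f.dist_unit hx hts] at e
      have h2 : ‖x - t • (x - z) - w‖ ≤ ‖x - t • (x - z) - z‖ + 3 * δ :=
        (norm_sub_le_norm_sub_add_norm_sub _ z w).trans (by linarith)
      have h3 : ‖x - (x - t • (x - z))‖ = ‖x - z‖ + ‖x - t • (x - z) - z‖ := by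
        rw [show x - (x - t • (x - z)) = t • (x - z) by module,
          show x - t • (x - z) - z = (1 - t) • (x - z) by module, norm_smul, norm_smul,
          Real.norm_of_nonneg (by linarith), Real.norm_eq_abs, abs_of_nonpos (by linarith)]
        ring
      have h4 := norm_sub_le_norm_sub_add_norm_sub x z w
      linarith
    · have h1 := f.core_upper hx hts hah hp hq
      have h2 : sd (x - (x - t • (x - z))) (‖x + a‖⁻¹ • (a - (‖x + a‖ - 1) • x)) +
          sd (x - (x - t • (x - z))) (‖x - a‖⁻¹ • (-a - (‖x - a‖ - 1) • x)) ≤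
          16 * (4 * ‖a‖) ^ 2 / δ := by
        rw [sub_sub_cancel]
        refine le_trans (add_le_add (sd_smul_le ht _ _) (sd_smul_le ht _ _)) ?_
        rwa [hz, sub_sub_cancel]
      linarith [hsmall (4 * ‖a‖) (by linarith) (by linarith)]
  · obtain ⟨P, hP, hsd⟩ := exists_sd_small (f.G x - (1 - 2 * δ) • f.G w)
      (‖x + a‖⁻¹ • (f.G (x + a) - ‖x + a‖ • f.G x))
      (‖x + -a‖⁻¹ • (f.G (x + -a) - ‖x + -a‖ • f.G x)) (δ := δ) (B := 8 * ‖a‖) (by linarith)
      (hbY a rfl) (hbY (-a) (norm_neg a)) (by linarith)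
    rw [← sub_eq_add_neg] at hsd
    have hyx : ‖f.G x‖ = 1 := by rw [f.norm_G, hx]
    set z := f.G x - P with hz
    have hzw : ‖z - (1 - 2 * δ) • f.G w‖ ≤ δ := by
      rw [norm_sub_rev] at hP
      rwa [hz, show f.G x - P - (1 - 2 * δ) • f.G w = f.G x - (1 - 2 * δ) • f.G w - P by abel]
    have hzlt : ‖z‖ < 1 := by
      have h := norm_sub_norm_le z ((1 - 2 * δ) • f.G w)
      rw [norm_smul, f.norm_G, hw, Real.norm_of_nonneg (by linarith), mul_one] at h
      linarith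
    have hzw' : ‖z - f.G w‖ ≤ 3 * δ := by
      have h := norm_add_le (z - (1 - 2 * δ) • f.G w) ((-2 * δ) • f.G w)
      rw [show z - (1 - 2 * δ) • f.G w + (-2 * δ) • f.G w = z - f.G w by module, norm_smul,
        f.norm_G, hw, mul_one, Real.norm_eq_abs, abs_of_nonpos (by linarith)] at h
      linarith
    obtain ⟨t, ht, hts⟩ := exists_beyond hyx hzlt
    set u := f.G x - t • (f.G x - z) with hu
    refine ⟨f.Gi u, by rw [f.norm_Gi, hts], fun p q hp hq => ?_⟩
    have hs1 : ‖f.Gi u‖ = 1 := by rw [f.norm_Gi, hts]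
    have hd : f.G x - f.G (f.Gi u) = t • (f.G x - z) := by rw [f.G_Gi, hu, sub_sub_cancel]
    have hq' : Supp (t • (f.G x - z)) q := hd ▸ hq
    refine ⟨?_, by linarith [supp_beyond ht hzw' hq', f.dist_unit hx hw], ?_⟩
    · have h1 := hp.ge (f.Gi u - w)
      rw [← f.dist_unit hs1 hw, f.G_Gi] at h1
      have e : p (x - w) = p (x - f.Gi u) + p (f.Gi u - w) := by
        rw [← map_add, sub_add_sub_cancel]
      rw [hp.2, ← f.dist_unit hx hs1, hd] at e
      have h2 : ‖u - f.G w‖ ≤ ‖u - z‖ + 3 * δ :=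
        (norm_sub_le_norm_sub_add_norm_sub _ z _).trans (by linarith)
      have h3 : ‖t • (f.G x - z)‖ = ‖f.G x - z‖ + ‖u - z‖ := by
        rw [hu, show f.G x - t • (f.G x - z) - z = (1 - t) • (f.G x - z) by module, norm_smul,
          norm_smul, Real.norm_of_nonneg (by linarith), Real.norm_eq_abs,
          abs_of_nonpos (by linarith)]
        ring
      have h4 := norm_sub_le_norm_sub_add_norm_sub (f.G x) z (f.G w)
      linarith [f.dist_unit hx hw]
    · have h1 := f.core_lower hx hs1 hah hp hq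
      rw [hd] at h1
      have h2 : sd (t • (f.G x - z)) (‖x + a‖⁻¹ • (f.G (x + a) - ‖x + a‖ • f.G x)) +
          sd (t • (f.G x - z)) (‖x - a‖⁻¹ • (f.G (x - a) - ‖x - a‖ • f.G x)) ≤
          16 * (8 * ‖a‖) ^ 2 / δ := by
        refine le_trans (add_le_add (sd_smul_le ht _ _) (sd_smul_le ht _ _)) ?_
        rwa [hz, sub_sub_cancel]
      linarith [hsmall (8 * ‖a‖) (by linarith) (by linarith)]

end PIso

end Vale.Agent.P084.Orbit
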