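import Vale.Agent.P084.Orbit.Basic

/-!
P084 (Tingley's problem), library: the universal bound on the second difference of the
homogeneous extension, its derivative at a point where the norm is Fréchet differentiable, and
the compatible supporting functionals.
-/

namespace Vale.Agent.P084.Orbit

open Filter Topology Metric

variable {X Y : Type*} [NormedAddCommGroup X] [NormedSpace ℝ X] [NormedAddCommGroup Y]
  [NormedSpace ℝ Y]

namespace PIso

variable (f : PIso X Y)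

/-- Chords near the one through a point of the open target ball. -/
lemma exists_chords_target {x a : X} {k : Y} {δ : ℝ} (hx : ‖x‖ = 1) (hk : ‖k‖ < 1) (ha0 : a ≠ 0)
    (haδ : 32 * ‖a‖ ≤ δ) (hδ : δ ≤ 1 / 4) :
    (∃ s, ‖s‖ = 1 ∧ ∀ p q, Supp (x - s) p → Supp (f.G x - f.G s) q →
      ‖f.G x - k‖ - 6 * δ ≤ q (f.G x - k) ∧
        q (f.E2 x a) ≤ sd x a * (q (f.G x) - p x) + K0 * ‖a‖ ^ 2 / δ) ∧
    ∃ s, ‖s‖ = 1 ∧ ∀ p q, Supp (x - s) p → Supp (f.G x - f.G s) q →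
      ‖f.G x - k‖ - 6 * δ ≤ q (f.G x - k) ∧
        sd x a * (q (f.G x) - p x) - K0 * ‖a‖ ^ 2 / δ ≤ q (f.E2 x a) := by
  obtain ⟨t, ht, hts⟩ := exists_beyond (x := f.G x) (by rw [f.norm_G, hx]) hk
  set u := f.G x - t • (f.G x - k) with hu
  have hw : ‖f.Gi u‖ = 1 := by rw [f.norm_Gi, hts]
  have hnd : ∀ q : Y →L[ℝ] ℝ, ‖x - f.Gi u‖ - 6 * δ ≤ q (f.G x - f.G (f.Gi u)) →
      ‖f.G x - k‖ - 6 * δ ≤ q (f.G x - k) := by
    intro q h
    rw [← f.dist_unit hx hw, f.G_Gi, hu, sub_sub_cancel, norm_smul,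
      Real.norm_of_nonneg (by linarith), map_smul, smul_eq_mul] at h
    have hδ0 : 0 ≤ δ := by linarith [norm_nonneg a]
    nlinarith
  obtain ⟨⟨s, hs, h1⟩, ⟨s', hs', h2⟩⟩ := f.exists_chords hx hw ha0 haδ hδ
  exact ⟨⟨s, hs, fun p q hp hq => ⟨hnd q (h1 p q hp hq).2.1, (h1 p q hp hq).2.2⟩⟩,
    ⟨s', hs', fun p q hp hq => ⟨hnd q (h2 p q hp hq).2.1, (h2 p q hp hq).2.2⟩⟩⟩

lemma abs_delta_le {x s : X} (hx : ‖x‖ = 1) {p : X →L[ℝ] ℝ} {q : Y →L[ℝ] ℝ}
    (hp : Supp (x - s) p) (hq : Supp (f.G x - f.G s) q) : |q (f.G x) - p x| ≤ 2 := by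
  have h1 := hq.le (f.G x)
  have h2 := hq.ge (f.G x)
  have h3 := hp.le x
  have h4 := hp.ge x
  rw [f.norm_G, hx] at h1 h2
  rw [hx] at h3 h4
  rw [abs_le]
  constructor <;> linarith

/-- The universal constant. -/
def C0 : ℝ := 268435456

lemma C0_pos : 0 < C0 := by norm_num [C0]

/-- **Universal bound.** The second difference of the extension is controlled by that of the
norm, at every point of every space. -/
theorem norm_E2_le {x a : X} (hx : ‖x‖ = 1) (ha : ‖a‖ ≤ 1 / 32768) :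
    ‖f.E2 x a‖ ≤ C0 * (sd x a + ‖a‖ ^ 2) := by
  rcases eq_or_ne a 0 with rfl | ha0
  · simp [E2, sd, two_smul, C0, hx]
    norm_num
  set e := ‖f.E2 x a‖ with he
  have hΦ := sd_nonneg x a
  rcases eq_or_ne e 0 with h0 | h0
  · rw [h0]; exact mul_nonneg C0_pos.le (by positivity)
  have he0 : 0 < e := lt_of_le_of_ne (norm_nonneg _) (Ne.symm h0)
  set y := f.G x with hy
  have hy1 : ‖y‖ = 1 := by rw [hy, f.norm_G, hx]
  set u := e⁻¹ • f.E2 x a with hu
  have hu1 : ‖u‖ = 1 := by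
    rw [hu, norm_smul, norm_inv, Real.norm_of_nonneg he0.le, ← he, inv_mul_cancel₀ h0]
  have hEu : f.E2 x a = e • u := by rw [hu, smul_smul, mul_inv_cancel₀ h0, one_smul]
  have haδ : 32 * ‖a‖ ≤ (1 / 1024 : ℝ) := by linarith
  have hR : K0 * ‖a‖ ^ 2 / (1 / 1024 : ℝ) = 4194304 * ‖a‖ ^ 2 := by rw [K0]; ring
  -- a functional with a definite value at `u` gives the bound
  have hend : ∀ (c : ℝ), 1 / 32 ≤ c → e * c ≤ 2 * sd x a + 4194304 * ‖a‖ ^ 2 →
      e ≤ C0 * (sd x a + ‖a‖ ^ 2) := by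
    intro c hc h
    have h1 : e * (1 / 32) ≤ e * c := mul_le_mul_of_nonneg_left hc he0.le
    have h2 : 0 ≤ ‖a‖ ^ 2 := sq_nonneg _
    rw [C0]
    linarith
  have hup : ∀ k : Y, ‖k‖ < 1 → ∃ q : Y →L[ℝ] ℝ, (∀ v, q v ≤ ‖v‖) ∧
      ‖y - k‖ - 6 / 1024 ≤ q (y - k) ∧ e * q u ≤ 2 * sd x a + 4194304 * ‖a‖ ^ 2 := by
    intro k hk
    obtain ⟨⟨s, hs, h⟩, -⟩ := f.exists_chords_target hx hk ha0 haδ (by norm_num)
    obtain ⟨p, hp⟩ := exists_supp (x - s)
    obtain ⟨q, hq⟩ := exists_supp (f.G x - f.G s)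
    obtain ⟨h1, h2⟩ := h p q hp hq
    rw [hEu, map_smul, smul_eq_mul, hR] at h2
    refine ⟨q, hq.le, by rw [hy]; linarith, ?_⟩
    have h3 := mul_le_mul_of_nonneg_left (le_of_abs_le (f.abs_delta_le hx hp hq)) hΦ
    linarith
  have hlo : ∀ k : Y, ‖k‖ < 1 → ∃ q : Y →L[ℝ] ℝ, (∀ v, q v ≤ ‖v‖) ∧
      ‖y - k‖ - 6 / 1024 ≤ q (y - k) ∧ e * (-q u) ≤ 2 * sd x a + 4194304 * ‖a‖ ^ 2 := by
    intro k hk
    obtain ⟨-, ⟨s, hs, h⟩⟩ := f.exists_chords_target hx hk ha0 haδ (by norm_num)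
    obtain ⟨p, hp⟩ := exists_supp (x - s)
    obtain ⟨q, hq⟩ := exists_supp (f.G x - f.G s)
    obtain ⟨h1, h2⟩ := h p q hp hq
    rw [hEu, map_smul, smul_eq_mul, hR] at h2
    refine ⟨q, hq.le, by rw [hy]; linarith, ?_⟩
    have h3 := mul_le_mul_of_nonneg_left (neg_le_of_abs_le (f.abs_delta_le hx hp hq)) hΦ
    linarith
  have hhalf : ∀ v : Y, ‖v‖ = 1 → ‖(1 / 2 : ℝ) • y + (1 / 4 : ℝ) • v‖ < 1 := by
    intro v hv
    refine (norm_add_le _ _).trans_lt ?_
    rw [norm_smul, norm_smul, hy1, hv]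
    norm_num
  rcases le_or_gt (1 / 2 + 1 / 64) ‖(1 / 2 : ℝ) • y + (1 / 4 : ℝ) • u‖ with hp | hp
  · obtain ⟨q, hq, h1, h2⟩ := hup ((1 / 2 : ℝ) • y + (1 / 4 : ℝ) • (-u))
      (hhalf _ (by rw [norm_neg, hu1]))
    rw [show y - ((1 / 2 : ℝ) • y + (1 / 4 : ℝ) • (-u)) = (1 / 2 : ℝ) • y + (1 / 4 : ℝ) • u
      by module, map_add, map_smul, map_smul, smul_eq_mul, smul_eq_mul] at h1
    have := hq y
    rw [hy1] at this
    exact hend _ (by linarith) h2
  rcases le_or_gt (1 / 2 + 1 / 64) ‖(1 / 2 : ℝ) • y + (1 / 4 : ℝ) • (-u)‖ with hm | hm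
  · obtain ⟨q, hq, h1, h2⟩ := hlo ((1 / 2 : ℝ) • y + (1 / 4 : ℝ) • u) (hhalf _ hu1)
    rw [show y - ((1 / 2 : ℝ) • y + (1 / 4 : ℝ) • u) = (1 / 2 : ℝ) • y + (1 / 4 : ℝ) • (-u)
      by module, map_add, map_smul, map_smul, map_neg, smul_eq_mul, smul_eq_mul] at h1
    have := hq y
    rw [hy1] at this
    exact hend (-q u) (by linarith) h2
  have hk : ‖y - (1 / 4 : ℝ) • (u + (1 / 8 : ℝ) • y)‖ < 1 := by
    rw [show y - (1 / 4 : ℝ) • (u + (1 / 8 : ℝ) • y) =
      ((1 / 2 : ℝ) • y + (1 / 4 : ℝ) • (-u)) + (15 / 32 : ℝ) • y by module]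
    refine (norm_add_le _ _).trans_lt ?_
    rw [norm_smul, hy1, Real.norm_of_nonneg (by norm_num)]
    linarith
  obtain ⟨q, hq, h1, h2⟩ := hup _ hk
  rw [sub_sub_cancel, map_smul, map_add, map_smul q (1 / 8 : ℝ) y, smul_eq_mul, smul_eq_mul, norm_smul,
    Real.norm_of_nonneg (by norm_num)] at h1
  have h3 := norm_sub_norm_le u (-((1 / 8 : ℝ) • y))
  rw [sub_neg_eq_add, norm_neg, norm_smul (1 / 8 : ℝ) y, hy1, hu1, Real.norm_of_nonneg (by norm_num)] at h3
  have := hq y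
  rw [hy1] at this
  exact hend _ (by linarith) h2

lemma norm_E2_le' {z a : X} (hz : 1 / 2 ≤ ‖z‖) (ha : ‖a‖ ≤ 1 / 65536) :
    ‖f.E2 z a‖ ≤ C0 * (sd z a + 2 * ‖a‖ ^ 2) := by
  set n := ‖z‖ with hn
  have hn0 : 0 < n := by linarith
  have hx : ‖n⁻¹ • z‖ = 1 := by
    rw [norm_smul, norm_inv, Real.norm_of_nonneg hn0.le, ← hn, inv_mul_cancel₀ hn0.ne']
  have hinv : n⁻¹ ≤ 2 := by rw [inv_le_comm₀ hn0 two_pos]; linarith
  have ha' : ‖n⁻¹ • a‖ ≤ 2 * ‖a‖ := by
    rw [norm_smul, norm_inv, Real.norm_of_nonneg hn0.le]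
    exact mul_le_mul_of_nonneg_right hinv (norm_nonneg _)
  have h := mul_le_mul_of_nonneg_left (f.norm_E2_le (a := n⁻¹ • a) hx (by linarith)) hn0.le
  have e : ∀ v : X, n • f.G (n⁻¹ • v) = f.G v := fun v => by
    rw [f.G_smul _ (inv_nonneg.2 hn0.le), smul_smul, mul_inv_cancel₀ hn0.ne', one_smul]
  have e1 : n • f.E2 (n⁻¹ • z) (n⁻¹ • a) = f.E2 z a := by
    simp only [E2, ← smul_add, ← smul_sub]
    rw [smul_sub, smul_add, smul_comm n (2 : ℝ), e, e, e]
  have e2 : n * sd (n⁻¹ • z) (n⁻¹ • a) = sd z a := by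
    simp only [sd, ← smul_add, ← smul_sub, norm_smul, norm_inv, Real.norm_of_nonneg hn0.le]
    field_simp
  have e3 : n * ‖n⁻¹ • a‖ ^ 2 ≤ 2 * ‖a‖ ^ 2 := by
    rw [norm_smul, norm_inv, Real.norm_of_nonneg hn0.le,
      show n * (n⁻¹ * ‖a‖) ^ 2 = n⁻¹ * ‖a‖ ^ 2 by field_simp]
    exact mul_le_mul_of_nonneg_right hinv (sq_nonneg _)
  calc ‖f.E2 z a‖ = n * ‖f.E2 (n⁻¹ • z) (n⁻¹ • a)‖ := by
        rw [← e1, norm_smul, Real.norm_of_nonneg hn0.le]
    _ ≤ n * (C0 * (sd (n⁻¹ • z) (n⁻¹ • a) + ‖n⁻¹ • a‖ ^ 2)) := h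
    _ = C0 * (sd z a + n * ‖n⁻¹ • a‖ ^ 2) := by rw [← e2]; ring
    _ ≤ C0 * (sd z a + 2 * ‖a‖ ^ 2) :=
        mul_le_mul_of_nonneg_left (by linarith) C0_pos.le

/-- Dyadic difference quotients. -/
noncomputable def dq (x a : X) (n : ℕ) : Y :=
  (2 : ℝ) ^ n • (f.G (x + ((2 : ℝ) ^ n)⁻¹ • a) - f.G x)

/-- The defect of the norm from its linearisation. -/
def defect (x : X) (π : X →L[ℝ] ℝ) (a : X) : ℝ := ‖x + a‖ - ‖x‖ - π a

lemma supp_of_hasFDerivAt {x : X} {π : X →L[ℝ] ℝ} (hx : x ≠ 0)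
    (hd : HasFDerivAt (fun z : X => ‖z‖) π x) : Supp x π := by
  refine ⟨fun v => ?_, ?_⟩
  · have h := hd.le_of_lipschitz lipschitzWith_one_norm
    rw [NNReal.coe_one] at h
    exact (Real.le_norm_self _).trans ((π.le_of_opNorm_le h v).trans_eq (one_mul _))
  · have h := hd.differentiableAt.fderiv_norm_self
    rwa [hd.fderiv] at h

variable {x : X} {π : X →L[ℝ] ℝ}

lemma defect_nonneg (hx : x ≠ 0) (hd : HasFDerivAt (fun z : X => ‖z‖) π x) (a : X) :
    0 ≤ defect x π a := by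
  have h := (supp_of_hasFDerivAt hx hd).le (x + a)
  rw [map_add, (supp_of_hasFDerivAt hx hd).2] at h
  unfold defect; linarith

/-- The potential of the telescoping sum. -/
noncomputable def pot (x : X) (π : X →L[ℝ] ℝ) (a : X) (n : ℕ) : ℝ :=
  C0 * ((2 : ℝ) ^ n * defect x π (((2 : ℝ) ^ n)⁻¹ • a) + 4 * ‖a‖ ^ 2 / (2 : ℝ) ^ n)

lemma dist_dq_succ (hx : ‖x‖ = 1) {a : X} (ha : ‖a‖ ≤ 1 / 65536) (n : ℕ) :
    dist (f.dq x a n) (f.dq x a (n + 1)) ≤ pot x π a n - pot x π a (n + 1) := by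
  set c : ℝ := (2 : ℝ) ^ n with hc
  have hc1 : 1 ≤ c := one_le_pow₀ (by norm_num)
  have hc0 : 0 < c := by linarith
  set b := (c * 2)⁻¹ • a with hb
  have hb2 : c⁻¹ • a = b + b := by rw [hb, ← two_smul ℝ, smul_smul]; congr 1; field_simp
  have hbn : ‖b‖ = ‖a‖ / (c * 2) := by
    rw [hb, norm_smul, norm_inv, Real.norm_of_nonneg (by positivity)]; ring
  have hbs : ‖b‖ ≤ 1 / 65536 := by
    rw [hbn]
    exact (div_le_self (norm_nonneg _) (by linarith)).trans ha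
  have hz : 1 / 2 ≤ ‖x + b‖ := by
    have h := norm_sub_norm_le x (-b)
    rw [sub_neg_eq_add, norm_neg, hx] at h
    linarith
  have h := f.norm_E2_le' hz hbs
  rw [E2, add_sub_cancel_right, add_assoc x b b, ← hb2] at h
  have e : f.dq x a n - f.dq x a (n + 1) =
      c • (f.G (x + c⁻¹ • a) + f.G x - (2 : ℝ) • f.G (x + b)) := by
    simp only [dq, pow_succ (2 : ℝ) n, ← hc, ← hb]
    module
  rw [dist_eq_norm, e, norm_smul, Real.norm_of_nonneg hc0.le]
  refine (mul_le_mul_of_nonneg_left h hc0.le).trans ?_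
  have e2 : sd (x + b) b = defect x π (c⁻¹ • a) - 2 * defect x π b := by
    simp only [sd, defect, add_sub_cancel_right, hb2, map_add, hx, add_assoc]
    ring
  simp only [pot, pow_succ (2 : ℝ) n, ← hc, ← hb]
  rw [e2, hbn]
  have : c * (2 * (‖a‖ / (c * 2)) ^ 2) ≤ 4 * ‖a‖ ^ 2 / c - 4 * ‖a‖ ^ 2 / (c * 2) := by
    rw [show c * (2 * (‖a‖ / (c * 2)) ^ 2) = ‖a‖ ^ 2 / (c * 2) by field_simp,
      show 4 * ‖a‖ ^ 2 / c - 4 * ‖a‖ ^ 2 / (c * 2) = 4 * ‖a‖ ^ 2 / (c * 2) by field_simp; ring]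
    gcongr
    linarith [sq_nonneg ‖a‖]
  have hC := mul_le_mul_of_nonneg_left this C0_pos.le
  linarith

lemma dist_dq_le (hx : ‖x‖ = 1) {a : X} (ha : ‖a‖ ≤ 1 / 65536) {n m : ℕ} (h : n ≤ m) :
    dist (f.dq x a n) (f.dq x a m) ≤ pot x π a n - pot x π a m := by
  induction m, h using Nat.le_induction with
  | base => simp
  | succ m _ ih =>
    linarith [dist_triangle (f.dq x a n) (f.dq x a m) (f.dq x a (m + 1)),
      f.dist_dq_succ (π := π) hx ha m]

lemma cauchySeq_dq_small (hx : ‖x‖ = 1) (hd : HasFDerivAt (fun z : X => ‖z‖) π x) {a : X}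
    (ha : ‖a‖ ≤ 1 / 65536) : CauchySeq (f.dq x a) := by
  have hx0 : x ≠ 0 := fun h => by simp [h] at hx
  have hpos : ∀ n, 0 ≤ pot x π a n := fun n => by
    have := defect_nonneg hx0 hd (((2 : ℝ) ^ n)⁻¹ • a)
    have := C0_pos
    unfold pot; positivity
  have hbdd : BddBelow (Set.range (pot x π a)) := ⟨0, by rintro _ ⟨n, rfl⟩; exact hpos n⟩
  have hanti : Antitone (pot x π a) := antitone_nat_of_succ_le fun n => by
    have := f.dist_dq_succ (π := π) hx ha n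
    linarith [dist_nonneg (x := f.dq x a n) (y := f.dq x a (n + 1))]
  have hlim := tendsto_atTop_ciInf hanti hbdd
  refine cauchySeq_of_le_tendsto_0 (fun n => 2 * (pot x π a n - ⨅ m, pot x π a m))
    (fun n m N hn hm => ?_) (by simpa using (hlim.sub_const (⨅ m, pot x π a m)).const_mul 2)
  have h1 := f.dist_dq_le (π := π) hx ha hn
  have h2 := f.dist_dq_le (π := π) hx ha hm
  have h3 := ciInf_le hbdd n
  have h4 := ciInf_le hbdd m
  linarith [dist_triangle (f.dq x a n) (f.dq x a N) (f.dq x a m),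
    dist_comm (f.dq x a N) (f.dq x a n)]

variable [CompleteSpace Y]

lemma exists_tendsto_dq (hx : ‖x‖ = 1) (hd : HasFDerivAt (fun z : X => ‖z‖) π x) (a : X) :
    ∃ l, Tendsto (f.dq x a) atTop (𝓝 l) := by
  obtain ⟨k, hk⟩ := pow_unbounded_of_one_lt (65536 * ‖a‖ + 1) (one_lt_two : (1 : ℝ) < 2)
  have hk0 : (0 : ℝ) < 2 ^ k := by positivity
  have hsmall : ‖((2 : ℝ) ^ k)⁻¹ • a‖ ≤ 1 / 65536 := by
    rw [norm_smul, norm_inv, Real.norm_of_nonneg hk0.le, ← div_eq_inv_mul, div_le_iff₀ hk0]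
    linarith
  obtain ⟨l, hl⟩ := cauchySeq_tendsto_of_complete (f.cauchySeq_dq_small hx hd hsmall)
  refine ⟨(2 : ℝ) ^ k • l, (tendsto_add_atTop_iff_nat k).1 ?_⟩
  refine (hl.const_smul ((2 : ℝ) ^ k)).congr fun n => ?_
  simp only [dq, smul_smul]
  congr 1
  · rw [pow_add, mul_comm]
  · rw [pow_add, mul_inv]

/-- **Derivative.** At a point where the norm is Fréchet differentiable the extension is. -/
theorem exists_deriv (hx : ‖x‖ = 1) (hd : HasFDerivAt (fun z : X => ‖z‖) π x) :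
    ∃ L : X →L[ℝ] Y, HasFDerivAt f.G L x ∧ L x = f.G x ∧ (∀ a, ‖a‖ ≤ 3 * ‖L a‖) ∧
      ∀ a : X, ‖a‖ ≤ 1 / 65536 →
        ‖f.G (x + a) - f.G x - L a‖ ≤ C0 * (defect x π a + 4 * ‖a‖ ^ 2) := by
  have hx0 : x ≠ 0 := fun h => by simp [h] at hx
  choose l hl using f.exists_tendsto_dq hx hd
  have hlip : ∀ a b, ‖l a - l b‖ ≤ 3 * ‖a - b‖ := fun a b => by
    refine le_of_tendsto ((hl a).sub (hl b)).norm (Eventually.of_forall fun n => ?_)
    simp only [dq, ← smul_sub, sub_sub_sub_cancel_right, norm_smul]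
    rw [Real.norm_of_nonneg (by positivity)]
    refine (mul_le_mul_of_nonneg_left (f.norm_G_sub_le _ _) (by positivity)).trans_eq ?_
    rw [add_sub_add_left_eq_sub, ← smul_sub, norm_smul, norm_inv,
      Real.norm_of_nonneg (by positivity)]
    field_simp
  have hanti : ∀ a, ‖a‖ ≤ 3 * ‖l a‖ := fun a => by
    refine ge_of_tendsto ((hl a).norm.const_mul 3) (Eventually.of_forall fun n => ?_)
    have h := f.symm.norm_G_sub_le (f.G (x + ((2 : ℝ) ^ n)⁻¹ • a)) (f.G x)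
    simp only [symm_G, Gi_G, add_sub_cancel_left, norm_smul, norm_inv] at h
    simp only [dq, norm_smul]
    rw [Real.norm_of_nonneg (by positivity : (0 : ℝ) ≤ 2 ^ n)] at h ⊢
    rw [← div_eq_inv_mul, div_le_iff₀ (by positivity)] at h
    linarith
  -- convergence of scaled defects
  have hdef : ∀ a : X, Tendsto (fun n : ℕ => (2 : ℝ) ^ n * defect x π (((2 : ℝ) ^ n)⁻¹ • a))
      atTop (𝓝 0) := fun a => by
    have h0 : Tendsto (fun n : ℕ => ((2 : ℝ) ^ n)⁻¹ • a) atTop (𝓝 0) := by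
      simpa using (tendsto_inv_atTop_zero.comp
        (tendsto_pow_atTop_atTop_of_one_lt (one_lt_two : (1 : ℝ) < 2))).smul_const a
    have ho := (hasFDerivAt_iff_isLittleO_nhds_zero.1 hd).comp_tendsto h0
    rw [Metric.tendsto_atTop]
    intro ε hε
    obtain ⟨N, hN⟩ := eventually_atTop.1 (ho.bound (show 0 < ε / (‖a‖ + 1) by positivity))
    refine ⟨N, fun n hn => ?_⟩
    have h := hN n hn
    simp only [Function.comp_apply, norm_smul, norm_inv] at h
    rw [dist_zero_right, norm_mul]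
    refine (mul_le_mul_of_nonneg_left h (norm_nonneg _)).trans_lt ?_
    rw [Real.norm_of_nonneg (by positivity : (0 : ℝ) ≤ 2 ^ n)]
    calc (2 : ℝ) ^ n * (ε / (‖a‖ + 1) * (((2 : ℝ) ^ n)⁻¹ * ‖a‖))
          = ε * (‖a‖ / (‖a‖ + 1)) := by field_simp
      _ < ε * 1 := by
          gcongr
          rw [div_lt_one (by positivity)]; linarith
      _ = ε := mul_one _
  have hmid : ∀ a b, l a + l b = (2 : ℝ) • l ((1 / 2 : ℝ) • (a + b)) := fun a b => by
    set m := (1 / 2 : ℝ) • (a + b) with hm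
    set c := (1 / 2 : ℝ) • (a - b) with hc
    refine sub_eq_zero.1 (norm_le_zero_iff.1 ?_)
    have h0 : ∀ v : X, Tendsto (fun n : ℕ => ((2 : ℝ) ^ n)⁻¹ • v) atTop (𝓝 0) := fun v => by
      simpa using (tendsto_inv_atTop_zero.comp
        (tendsto_pow_atTop_atTop_of_one_lt (one_lt_two : (1 : ℝ) < 2))).smul_const v
    have hup : Tendsto (fun n : ℕ => C0 * ((2 : ℝ) ^ n * defect x π (((2 : ℝ) ^ n)⁻¹ • a) +
        (2 : ℝ) ^ n * defect x π (((2 : ℝ) ^ n)⁻¹ • b) + 2 * ‖c‖ ^ 2 * ((2 : ℝ) ^ n)⁻¹))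
        atTop (𝓝 0) := by
      simpa using ((((hdef a).add (hdef b)).add ((tendsto_inv_atTop_zero.comp
        (tendsto_pow_atTop_atTop_of_one_lt (one_lt_two : (1 : ℝ) < 2))).const_mul
          (2 * ‖c‖ ^ 2))).const_mul C0)
    refine le_of_tendsto_of_tendsto (((hl a).add (hl b)).sub ((hl m).const_smul (2 : ℝ))).norm
      hup ?_
    filter_upwards [(h0 m).eventually (Metric.closedBall_mem_nhds 0 (by norm_num : (0:ℝ) < 1 / 2)),
      (h0 c).eventually (Metric.closedBall_mem_nhds 0 (by norm_num : (0:ℝ) < 1 / 65536))]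
      with n hmn hcn
    rw [dist_zero_right] at hmn hcn
    set t : ℝ := ((2 : ℝ) ^ n)⁻¹ with ht
    have hz : 1 / 2 ≤ ‖x + t • m‖ := by
      have h := norm_sub_norm_le x (-(t • m))
      rw [sub_neg_eq_add, norm_neg, hx] at h
      linarith
    have h := f.norm_E2_le' hz hcn
    have ea : x + t • m + t • c = x + t • a := by rw [hm, hc]; module
    have eb : x + t • m - t • c = x + t • b := by rw [hm, hc]; module
    rw [E2, ea, eb] at h
    have esd : sd (x + t • m) (t • c) ≤ defect x π (t • a) + defect x π (t • b) := by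
      have hπ : π (t • a) + π (t • b) = 2 * π (t • m) := by
        rw [hm]; simp only [map_smul, map_add, smul_eq_mul]; ring
      have := defect_nonneg hx0 hd (t • m)
      simp only [sd, ea, eb, defect] at this ⊢
      linarith
    have e : f.dq x a n + f.dq x b n - (2 : ℝ) • f.dq x m n =
        (2 : ℝ) ^ n • (f.G (x + t • a) + f.G (x + t • b) - (2 : ℝ) • f.G (x + t • m)) := by
      simp only [dq, ← ht]
      module
    rw [e, norm_smul, Real.norm_of_nonneg (by positivity)]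
    refine (mul_le_mul_of_nonneg_left h (by positivity)).trans ?_
    rw [norm_smul, ht, norm_inv, Real.norm_of_nonneg (by positivity : (0 : ℝ) ≤ 2 ^ n)]
    have h2n : (0 : ℝ) < 2 ^ n := by positivity
    have := mul_le_mul_of_nonneg_left esd (mul_nonneg C0_pos.le h2n.le)
    rw [ht] at this
    have e' : (2 : ℝ) ^ n * (C0 * (2 * (((2 : ℝ) ^ n)⁻¹ * ‖c‖) ^ 2)) =
        C0 * (2 * ‖c‖ ^ 2 * ((2 : ℝ) ^ n)⁻¹) := by field_simp
    linarith
  have hl0 : l 0 = 0 := tendsto_nhds_unique (hl 0)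
    (tendsto_const_nhds.congr fun n => by simp [dq])
  have hadd : ∀ a b, l (a + b) = l a + l b := fun a b => by
    have h := hmid (a + b) 0
    rw [hl0, add_zero, add_zero, ← hmid a b] at h
    exact h
  let φ : X →+ Y := AddMonoidHom.mk' l hadd
  have hc : Continuous φ :=
    (LipschitzWith.of_dist_le_mul (K := 3) fun a b => by
      simpa [dist_eq_norm, φ] using hlip a b).continuous
  have hest : ∀ a : X, ‖a‖ ≤ 1 / 65536 →
      ‖f.G (x + a) - f.G x - l a‖ ≤ C0 * (defect x π a + 4 * ‖a‖ ^ 2) := by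
    intro a ha
    have hpos : ∀ n, 0 ≤ pot x π a n := fun n => by
      have := defect_nonneg hx0 hd (((2 : ℝ) ^ n)⁻¹ • a)
      have := C0_pos
      unfold pot; positivity
    have h := le_of_tendsto ((tendsto_const_nhds.dist (hl a)))
      (Eventually.of_forall fun n =>
        (f.dist_dq_le (π := π) hx ha (Nat.zero_le n)).trans (sub_le_self _ (hpos n)))
    rw [dist_eq_norm] at h
    simpa [dq, pot] using h
  refine ⟨φ.toRealLinearMap hc, ?_, ?_, fun a => hanti a, hest⟩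
  rotate_left
  · refine tendsto_nhds_unique (hl x) (tendsto_const_nhds.congr fun n => ?_)
    have h2n : (0 : ℝ) < 2 ^ n := by positivity
    rw [dq, show x + ((2 : ℝ) ^ n)⁻¹ • x = (1 + ((2 : ℝ) ^ n)⁻¹) • x by module,
      f.G_smul _ (by positivity)]
    rw [show (1 + ((2 : ℝ) ^ n)⁻¹) • f.G x - f.G x = ((2 : ℝ) ^ n)⁻¹ • f.G x by module,
      smul_smul, mul_inv_cancel₀ h2n.ne', one_smul]
  refine hasFDerivAt_iff_isLittleO_nhds_zero.2 ?_
  refine Asymptotics.IsBigO.trans_isLittleO (g := fun a : X => defect x π a + 4 * ‖a‖ ^ 2)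
    (Asymptotics.IsBigO.of_bound C0 ?_) ?_
  · filter_upwards [Metric.closedBall_mem_nhds (0 : X) (by norm_num : (0:ℝ) < 1 / 65536)]
      with a ha
    rw [Real.norm_of_nonneg (by have := defect_nonneg hx0 hd a; positivity)]
    exact hest a (mem_closedBall_zero_iff.1 ha)
  · refine (Asymptotics.IsLittleO.add (hasFDerivAt_iff_isLittleO_nhds_zero.1 hd) ?_)
    exact (Asymptotics.isLittleO_norm_pow_id (E' := X) one_lt_two).const_mul_left 4

variable [CompleteSpace X]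

/-- The derivative is a linear homeomorphism, and the target norm is differentiable at the
image. -/
theorem exists_deriv_equiv (hx : ‖x‖ = 1) (hd : HasFDerivAt (fun z : X => ‖z‖) π x) :
    ∃ L : X ≃L[ℝ] Y, HasFDerivAt f.G (L : X →L[ℝ] Y) x ∧ L x = f.G x ∧
      HasFDerivAt (fun w : Y => ‖w‖) (π.comp (L.symm : Y →L[ℝ] X)) (f.G x) ∧
      ∀ a : X, ‖a‖ ≤ 1 / 65536 →
        ‖f.G (x + a) - f.G x - L a‖ ≤ C0 * (defect x π a + 4 * ‖a‖ ^ 2) := by
  obtain ⟨L, hL, hLx, hanti, hest⟩ := f.exists_deriv hx hd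
  have hal : AntilipschitzWith 3 L := ContinuousLinearMap.antilipschitz_of_bound L fun a => by
    simpa using hanti a
  have hclosed := hal.isClosed_range L.uniformContinuous
  have hsurj : ∀ w : Y, w ∈ Set.range L := fun w => by
    rw [← hclosed.closure_eq, Metric.mem_closure_iff]
    intro ε hε
    have ho := (hasFDerivAt_iff_isLittleO_nhds_zero.1 hL).bound
      (show 0 < ε / (3 * ‖w‖ + 1) by positivity)
    obtain ⟨r, hr, hball⟩ := Metric.eventually_nhds_iff.1 ho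
    set t : ℝ := r / (3 * ‖w‖ + 1) / 2 with ht
    have ht0 : 0 < t := by positivity
    set b := f.Gi (f.G x + t • w) - x with hb
    have hb1 : ‖b‖ ≤ t * (3 * ‖w‖) := by
      have h := f.symm.norm_G_sub_le (f.G x + t • w) (f.G x)
      rw [symm_G, f.Gi_G, add_sub_cancel_left, norm_smul, Real.norm_of_nonneg ht0.le] at h
      linarith
    have hb2 : ‖b‖ < r := by
      refine lt_of_le_of_lt hb1 ?_
      have e : t * (3 * ‖w‖ + 1) = r / 2 := by rw [ht]; field_simp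
      linarith
    have h := hball (y := b) (by rwa [dist_zero_right])
    rw [hb, add_sub_cancel, f.G_Gi, add_sub_cancel_left, ← hb] at h
    refine ⟨L (t⁻¹ • b), ⟨_, rfl⟩, ?_⟩
    rw [dist_eq_norm, map_smul, show w - t⁻¹ • L b = t⁻¹ • (t • w - L b) by
      rw [smul_sub, smul_smul, inv_mul_cancel₀ ht0.ne', one_smul], norm_smul, norm_inv,
      Real.norm_of_nonneg ht0.le]
    calc t⁻¹ * ‖t • w - L b‖ ≤ t⁻¹ * (ε / (3 * ‖w‖ + 1) * (t * (3 * ‖w‖))) := by
          gcongr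
          exact h.trans (by gcongr)
      _ = ε * (3 * ‖w‖ / (3 * ‖w‖ + 1)) := by field_simp
      _ < ε * 1 := by
          gcongr
          rw [div_lt_one (by positivity)]; linarith
      _ = ε := mul_one _
  set e := ContinuousLinearEquiv.ofBijective L (LinearMap.ker_eq_bot.2 hal.injective)
    (LinearMap.range_eq_top.2 hsurj) with he
  have hGe : HasFDerivAt f.G (e : X →L[ℝ] Y) x := hL.congr_fderiv (by ext; rfl)
  refine ⟨e, hGe, hLx, ?_, hest⟩
  have hGi : HasFDerivAt f.Gi (e.symm : Y →L[ℝ] X) (f.G x) := by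
    refine HasFDerivAt.of_local_left_inverse f.symm.continuous_G.continuousAt ?_
      (Eventually.of_forall f.G_Gi)
    rw [f.Gi_G]
    exact hGe
  have hd' : HasFDerivAt (fun z : X => ‖z‖) π (f.Gi (f.G x)) := by rwa [f.Gi_G]
  have := hd'.comp (f.G x) hGi
  simpa [Function.comp_def, f.norm_Gi] using this

omit [CompleteSpace X] [CompleteSpace Y] in
/-- Supporting functionals at a chord correspond on the tangent hyperplane. -/
theorem exists_compat (hx : ‖x‖ = 1) (hd : HasFDerivAt (fun z : X => ‖z‖) π x)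
    {L : X →L[ℝ] Y} (hL : HasFDerivAt f.G L x) {s : X} (hs : ‖s‖ = 1) {p : X →L[ℝ] ℝ}
    (hp : Supp (x - s) p) :
    ∃ q, Supp (f.G x - f.G s) q ∧ ∀ τ, π τ = 0 → q (L τ) = p τ := by
  set d' := f.G x - f.G s with hd'
  have hl : ‖d'‖ = ‖x - s‖ := f.dist_unit hx hs
  have key : ∀ τ, π τ = 0 → ‖x - s‖ + p τ ≤ ‖d' + L τ‖ := by
    intro τ hτ
    refine le_of_forall_pos_le_add fun ε hε => ?_
    have ho1 := (hasFDerivAt_iff_isLittleO_nhds_zero.1 hL).bound
      (show 0 < ε / (4 * (‖τ‖ + 1)) by positivity)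
    have ho2 := (hasFDerivAt_iff_isLittleO_nhds_zero.1 hd).bound
      (show 0 < ε / (4 * (‖τ‖ + 1)) by positivity)
    obtain ⟨r, hr, hball⟩ := Metric.eventually_nhds_iff.1 (ho1.and ho2)
    set t : ℝ := min 1 (r / (2 * (‖τ‖ + 1))) with ht
    have ht0 : 0 < t := lt_min one_pos (by positivity)
    have ht1 : t ≤ 1 := min_le_left _ _
    have htn : ‖t • τ‖ = t * ‖τ‖ := by rw [norm_smul, Real.norm_of_nonneg ht0.le]
    have htr : ‖t • τ‖ < r := by
      have h1 : t * (2 * (‖τ‖ + 1)) ≤ r :=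
        (le_div_iff₀ (by positivity)).1 (min_le_right _ _)
      have h2 : 0 ≤ t * ‖τ‖ := by positivity
      linarith
    obtain ⟨h1, h2⟩ := hball (y := t • τ) (by rwa [dist_zero_right])
    simp only [map_smul, hτ, smul_zero, sub_zero, hx, htn, Real.norm_eq_abs] at h1 h2
    have hsmall : ε / (4 * (‖τ‖ + 1)) * (t * ‖τ‖) ≤ ε / 4 * t := by
      rw [show ε / (4 * (‖τ‖ + 1)) * (t * ‖τ‖) = ε / 4 * t * (‖τ‖ / (‖τ‖ + 1)) by field_simp]
      refine mul_le_of_le_one_right (by positivity) ?_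
      rw [div_le_one (by positivity)]; linarith
    set n := ‖x + t • τ‖ with hn
    have hup : ‖f.G (x + t • τ) - n • f.G s‖ ≤ ‖d' + t • L τ‖ + |n - 1| +
        ‖f.G (x + t • τ) - f.G x - t • L τ‖ := by
      rw [show f.G (x + t • τ) - n • f.G s = (d' + t • L τ) + ((1 - n) • f.G s +
        (f.G (x + t • τ) - f.G x - t • L τ)) by rw [hd']; module]
      refine (norm_add_le _ _).trans ?_
      have := norm_add_le ((1 - n) • f.G s) (f.G (x + t • τ) - f.G x - t • L τ)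
      rw [norm_smul, f.norm_G, hs, mul_one, Real.norm_eq_abs, abs_sub_comm] at this
      linarith
    rw [f.key (x + t • τ) s hs, ← hn] at hup
    have hlow := hp.le (x + t • τ - n • s)
    rw [show x + t • τ - n • s = (x - s) + t • τ + (1 - n) • s by module, map_add, map_add, hp.2,
      map_smul, map_smul, smul_eq_mul, smul_eq_mul,
      show (x - s) + t • τ + (1 - n) • s = x + t • τ - n • s by module] at hlow
    have hps : -|n - 1| ≤ (1 - n) * p s := by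
      have h3 := hp.le s
      have h4 := hp.ge s
      rw [hs] at h3 h4
      have : |(1 - n) * p s| ≤ |n - 1| := by
        rw [abs_mul, abs_sub_comm]
        exact mul_le_of_le_one_right (abs_nonneg _) (abs_le.2 ⟨h4, h3⟩)
      linarith [(abs_le.1 this).1]
    have hconv : ‖d' + t • L τ‖ ≤ (1 - t) * ‖x - s‖ + t * ‖d' + L τ‖ := by
      rw [show d' + t • L τ = (1 - t) • d' + t • (d' + L τ) by module]
      refine (norm_add_le _ _).trans_eq ?_
      rw [norm_smul, norm_smul, Real.norm_of_nonneg (by linarith), Real.norm_of_nonneg ht0.le, hl]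
    have hεt := mul_pos hε ht0
    have : t * (‖x - s‖ + p τ) ≤ t * (‖d' + L τ‖ + ε) := by linarith
    exact le_of_mul_le_mul_left this ht0
  let K : Submodule ℝ X := LinearMap.ker (π : X →ₗ[ℝ] ℝ)
  let ψ : ℝ × K →ₗ[ℝ] Y :=
    (LinearMap.toSpanSingleton ℝ Y d').comp (LinearMap.fst ℝ ℝ K) +
      (L : X →ₗ[ℝ] Y).comp (K.subtype.comp (LinearMap.snd ℝ ℝ K))
  let φ : ℝ × K →ₗ[ℝ] ℝ :=
    (LinearMap.toSpanSingleton ℝ ℝ ‖x - s‖).comp (LinearMap.fst ℝ ℝ K) +
      (p : X →ₗ[ℝ] ℝ).comp (K.subtype.comp (LinearMap.snd ℝ ℝ K))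
  have hdom : ∀ v, φ v ≤ ‖ψ v‖ := by
    rintro ⟨c, τ, hτ⟩
    have hτ' : π τ = 0 := hτ
    show c * ‖x - s‖ + p τ ≤ ‖c • d' + L τ‖
    have hle : p τ ≤ ‖L τ‖ := by
      have := (key τ hτ').trans (norm_add_le _ _)
      linarith
    rcases le_or_gt c 0 with hc | hc
    · have := norm_sub_le (c • d' + L τ) (c • d')
      rw [add_sub_cancel_left, norm_smul, Real.norm_eq_abs, abs_of_nonpos hc, hl] at this
      linarith
    · have h := mul_le_mul_of_nonneg_left (key (c⁻¹ • τ) (by simp [hτ'])) hc.le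
      rw [map_smul, map_smul, smul_eq_mul, ← Real.norm_of_nonneg hc.le, ← norm_smul, smul_add,
        smul_smul, Real.norm_of_nonneg hc.le, mul_inv_cancel₀ hc.ne', one_smul, mul_add,
        ← mul_assoc, mul_inv_cancel₀ hc.ne', one_mul] at h
      exact h
  have hker : LinearMap.ker ψ ≤ LinearMap.ker φ := by
    intro v hv
    rw [LinearMap.mem_ker] at hv ⊢
    have h1 := hdom v
    have h2 := hdom (-v)
    rw [hv, norm_zero] at h1
    rw [map_neg, map_neg, hv, neg_zero, norm_zero] at h2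
    linarith
  let g : Y →ₗ.[ℝ] ℝ :=
    ⟨LinearMap.range ψ, (LinearMap.ker ψ).liftQ φ hker ∘ₗ ψ.quotKerEquivRange.symm.toLinearMap⟩
  have hg : ∀ v, g ⟨ψ v, LinearMap.mem_range_self ψ v⟩ = φ v := fun v => by
    show (LinearMap.ker ψ).liftQ φ hker (ψ.quotKerEquivRange.symm ⟨ψ v, _⟩) = φ v
    rw [LinearMap.quotKerEquivRange_symm_apply_image]
    rfl
  obtain ⟨q, hq1, hq2⟩ := exists_extension_of_le_sublinear g (fun v => ‖v‖)
    (fun c hc v => by rw [norm_smul, Real.norm_of_nonneg hc.le]) norm_add_le (by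
      rintro ⟨_, v, rfl⟩
      exact (hg v).trans_le (hdom v))
  have hqb : ∀ v, ‖q v‖ ≤ 1 * ‖v‖ := fun v => by
    have := hq2 (-v)
    rw [map_neg, norm_neg] at this
    rw [one_mul, Real.norm_eq_abs, abs_le]
    exact ⟨by linarith, hq2 v⟩
  have hval : ∀ v, q (ψ v) = φ v := fun v =>
    (hq1 ⟨ψ v, LinearMap.mem_range_self ψ v⟩).trans (hg v)
  refine ⟨q.mkContinuous 1 hqb, ⟨hq2, ?_⟩, fun τ hτ => ?_⟩
  · have := hval (1, 0)
    simpa [ψ, φ, hl] using this
  · have := hval (0, ⟨τ, hτ⟩)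
    simpa [ψ, φ] using this

end PIso

end Vale.Agent.P084.Orbit
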